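import Vale.Agent.P073Y.B.Defs
import Vale.Agent.P073Y.Zn.Bas

/-!
# Regions over which the complex is a cubic lattice and the map is a homothety
-/

open Set Metric Topology Filter
open scoped NNReal ENNReal

namespace P073.Mo

open P073.Top P073.Zn P073.B
open P073.An (M3)
open P073.Gc (Bil)
open P073.M2 (hull)

variable {Ω : Set E3} {S : Src Ω} {g h : E3 → E3} {W W' : Set E3} {y₀ : E3} {l : ℝ}

/-- over `W` the complex is a cubic lattice and `g` is the homothety `y₀ + l • ξ` -/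
def Lat (S : Src Ω) (g : E3 → E3) (W : Set E3) (y₀ : E3) (l : ℝ) : Prop :=
  ∃ ξ : E3 ≃ᵃ[ℝ] E3, (∀ c, ∀ x ∈ S.Q.ocell c, g x ∈ W → S.Q.cell c = ξ ⁻¹' hull (ξ x)) ∧
    ∀ x ∈ Ω, g x ∈ W → g x = y₀ + l • ξ x

theorem ocell_sub {c : S.Q.ι} {x : E3} (hx : x ∈ S.Q.ocell c) : x ∈ Ω := cell_sub c hx.1

/-- transport: where `h` is in `W'`, `g` is in `W` and `h` is a homothetic image of `g` -/
theorem Lat.map (H : Lat S g W y₀ l) {β γ : E3} {t : ℝ}
    (e : ∀ x ∈ Ω, h x ∈ W' → g x ∈ W ∧ h x = γ + t • (g x - β)) :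
    Lat S h W' (γ + t • (y₀ - β)) (t * l) := by
  obtain ⟨ξ, h1, h2⟩ := H
  refine ⟨ξ, fun c x hx hw => h1 c x hx (e x (ocell_sub hx) hw).1, fun x hx hw => ?_⟩
  obtain ⟨e1, e2⟩ := e x hx hw
  rw [e2, h2 x hx e1]
  module

theorem Lat.congr (H : Lat S g W y₀ l) (e : ∀ x ∈ Ω, h x ∈ W' → g x ∈ W ∧ h x = g x) :
    Lat S h W' y₀ l := by
  have := H.map (h := h) (W' := W') (β := 0) (γ := 0) (t := 1) fun x hx hw => by
    simpa using e x hx hw
  simpa using this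

theorem Lat.mono (H : Lat S g W y₀ l) (hW : W' ⊆ W) : Lat S g W' y₀ l :=
  H.congr fun _ _ hw => ⟨hW hw, rfl⟩

theorem Lat.aff (H : Lat S g W y₀ l) {c : S.Q.ι} (hc : g '' S.Q.cell c ⊆ W) :
    ∃ A : E3 →ᵃ[ℝ] E3, EqOn g A (S.Q.cell c) := by
  obtain ⟨ξ, -, h2⟩ := H
  refine ⟨AffineMap.const ℝ E3 y₀ + l • ξ.toAffineMap, fun x hx => ?_⟩
  rw [h2 x (cell_sub c hx) (hc (mem_image_of_mem g hx))]
  simp

/-- the image of a cell is a lattice box -/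
theorem Lat.image (H : Lat S g W y₀ l) (hl : 0 < l) {c : S.Q.ι} (hc : g '' S.Q.cell c ⊆ W) :
    ∃ u : E3, g '' S.Q.cell c =
      Icc (fun i => y₀ i + l * ⌊u i⌋) fun i => y₀ i + l * ⌈u i⌉ := by
  obtain ⟨ξ, h1, h2⟩ := H
  obtain ⟨x, hx⟩ := S.Q.ocell_nonempty c
  have e := h1 c x hx (hc (mem_image_of_mem g hx.1))
  have e2 : ∀ w ∈ S.Q.cell c, g w = y₀ + l • ξ w := fun w hw =>
    h2 w (cell_sub c hw) (hc (mem_image_of_mem g hw))
  refine ⟨ξ x, Subset.antisymm ?_ fun y hy => ?_⟩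
  · rintro _ ⟨w, hw, rfl⟩
    rw [e2 w hw]
    rw [e] at hw
    exact ⟨fun i => by simpa using mul_le_mul_of_nonneg_left (hw.1 i) hl.le,
      fun i => by simpa using mul_le_mul_of_nonneg_left (hw.2 i) hl.le⟩
  · have hw : ξ.symm (l⁻¹ • (y - y₀)) ∈ S.Q.cell c := by
      rw [e, mem_preimage, ξ.apply_symm_apply]
      refine ⟨fun i => ?_, fun i => ?_⟩
      · have := hy.1 i
        simp only [Pi.smul_apply, Pi.sub_apply, smul_eq_mul] at this ⊢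
        rw [← div_eq_inv_mul, le_div_iff₀ hl]
        linarith
      · have := hy.2 i
        simp only [Pi.smul_apply, Pi.sub_apply, smul_eq_mul] at this ⊢
        rw [← div_eq_inv_mul, div_le_iff₀ hl]
        linarith
    refine ⟨_, hw, ?_⟩
    rw [e2 _ hw, ξ.apply_symm_apply, smul_inv_smul₀ hl.ne']
    abel

theorem Lat.ali (H : Lat S g W y₀ l) (hl : 0 < l) {c : S.Q.ι} (hc : g '' S.Q.cell c ⊆ W) :
    Ali S g c :=
  ⟨H.aff hc, fun _ hφ => let ⟨_, e⟩ := H.image hl ((image_mono hφ).trans hc); ⟨_, _, e⟩⟩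

/-- a cell lies on one side of every lattice plane -/
theorem Lat.side (H : Lat S g W y₀ l) (hl : 0 < l) {c : S.Q.ι} (hc : g '' S.Q.cell c ⊆ W)
    (i : Fin 3) (n : ℤ) : (∀ x ∈ S.Q.cell c, g x i ≤ y₀ i + l * n) ∨
      ∀ x ∈ S.Q.cell c, y₀ i + l * n ≤ g x i := by
  obtain ⟨u, e⟩ := H.image hl hc
  have m : ∀ x ∈ S.Q.cell c, y₀ i + l * ⌊u i⌋ ≤ g x i ∧ g x i ≤ y₀ i + l * ⌈u i⌉ := fun x hx =>
    have : g x ∈ Icc (fun i => y₀ i + l * ⌊u i⌋) fun i => y₀ i + l * ⌈u i⌉ :=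
      e ▸ mem_image_of_mem g hx
    ⟨this.1 i, this.2 i⟩
  rcases le_total (u i) n with hn | hn
  · have : ((⌈u i⌉ : ℤ) : ℝ) ≤ n := by exact_mod_cast Int.ceil_le.2 hn
    exact Or.inl fun x hx => (m x hx).2.trans (by nlinarith)
  · have : (n : ℝ) ≤ (⌊u i⌋ : ℤ) := by exact_mod_cast Int.le_floor.2 hn
    exact Or.inr fun x hx => le_trans (by nlinarith) (m x hx).1

theorem Lat.ok (H : Lat S g W y₀ l) (hl : 0 < l) {c : S.Q.ι} (hc : g '' S.Q.cell c ⊆ W)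
    (Bf : Fin 3 → Set ℝ) (i : Fin 3) (n : ℤ) {v : ℝ} (hv : v = y₀ i + l * n) :
    Ok S g Bf c i v :=
  Or.inl ⟨H.ali hl hc, hv ▸ H.side hl hc i n⟩

/-! ### signs and integral shifts -/

/-- the change of lattice coordinates -/
noncomputable def sgn (ε : Fin 3 → ℝ) (q : Z3) (hε : ∀ i, ε i = 1 ∨ ε i = -1) : E3 ≃ᵃ[ℝ] E3 where
  toFun u := fun i => ε i * (u i - q i)
  invFun u := fun i => ε i * u i + q i
  left_inv u := by
    funext i
    rcases hε i with e | e <;> simp [e]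
  right_inv u := by
    funext i
    rcases hε i with e | e <;> simp [e]
  linear := LinearEquiv.piCongrRight fun i =>
    LinearEquiv.smulOfNeZero ℝ ℝ (ε i) (by rcases hε i with e | e <;> simp [e])
  map_vadd' u v := by
    funext i
    simp
    ring

theorem sgn_apply (ε : Fin 3 → ℝ) (q : Z3) (hε : ∀ i, ε i = 1 ∨ ε i = -1) (u : E3) (i : Fin 3) :
    sgn ε q hε u i = ε i * (u i - q i) := rfl

theorem sgn_hull (ε : Fin 3 → ℝ) (q : Z3) (hε : ∀ i, ε i = 1 ∨ ε i = -1) (u : E3) :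
    sgn ε q hε ⁻¹' hull (sgn ε q hε u) = hull u := by
  ext w
  simp only [mem_preimage, hull, mem_Icc, Pi.le_def, sgn_apply, ← forall_and]
  refine forall_congr' fun i => ?_
  rcases hε i with e | e
  · rw [e, one_mul, one_mul, Int.floor_sub_intCast, Int.ceil_sub_intCast]
    push_cast
    constructor <;> rintro ⟨a, b⟩ <;> constructor <;> linarith
  · rw [e, neg_one_mul, neg_one_mul, Int.floor_neg, Int.ceil_neg, Int.floor_sub_intCast,
      Int.ceil_sub_intCast]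
    push_cast
    constructor <;> rintro ⟨a, b⟩ <;> constructor <;> linarith

/-- an aligned hole: where `h` is in `W'`, the cells are lattice cells in the coordinates `ξ` and
`h` has the form given by the hole -/
theorem lat_of_sgn (ξ : E3 ≃ᵃ[ℝ] E3) {ε : Fin 3 → ℝ} {q : Z3} (hε : ∀ i, ε i = 1 ∨ ε i = -1)
    (h1 : ∀ c, ∀ x ∈ S.Q.ocell c, h x ∈ W' → S.Q.cell c = ξ ⁻¹' hull (ξ x))
    (h2 : ∀ x ∈ Ω, h x ∈ W' → h x = fun i => y₀ i + l * (ε i * (ξ x i - q i))) :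
    Lat S h W' y₀ l := by
  refine ⟨ξ.trans (sgn ε q hε), fun c x hx hw => ?_, fun x hx hw => ?_⟩
  · rw [h1 c x hx hw, ← sgn_hull ε q hε (ξ x)]
    rfl
  · rw [h2 x hx hw]
    rfl

theorem bil_id {b : ℝ} (hb : 1 ≤ b) : Bil b (ContinuousLinearMap.id ℝ E3) :=
  ⟨ContinuousLinearMap.norm_id_le.trans hb, fun u => le_mul_of_one_le_left (norm_nonneg u) hb⟩

theorem Lat.cert (H : Lat S g W y₀ l) (hl : 0 < l) {b l₀ : ℝ} (hb : 1 ≤ b) (hl₀ : l ≤ l₀) :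
    Cert S g W b l₀ := fun _ hO _ _ =>
  let ⟨ξ, h1, h2⟩ := H.mono hO
  ⟨ξ, .id ℝ E3, l, y₀, bil_id hb, hl, hl₀, h1, h2⟩

end P073.Mo
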