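import Vale.Agent.P073Y.B.Defs2
import Vale.Agent.P073Y.Mo.Lat
import Vale.Agent.P073Y.Zn.Za
import Vale.Agent.P073Y.Rd.Par
import Vale.Agent.P073Z.ACC.Tool

/-!
# Tools for the mosaic: composition of control, gluing over unit boxes
-/

open Set Metric Topology Filter
open scoped NNReal ENNReal

namespace P073.Mo.Tl

open P073.Top P073.Zn P073.B

variable {Ω Λ : Set E3} {S : Src Ω} {g g₁ h h' : E3 → E3}

theorem lipc_le {X : Set E3} {K : ℝ≥0∞}
    (H : ∀ x ∈ X, ∀ y ∈ X, edist (h x) (h y) ≤ K * edist (g x) (g y)) :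
    lipc h X ≤ K * lipc g X :=
  iSup₂_le fun x hx => iSup₂_le fun y hy => ENNReal.div_le_of_le_mul
    ((H x hx y hy).trans (by
      rw [mul_assoc]
      exact mul_le_mul_right (Za.edist_le hx hy) K))

theorem A_le {c : S.Q.ι} {K : ℝ≥0∞} (H : ∀ e, S.Q.dim e = 1 → S.Q.cell e ⊆ S.Q.cell c →
    lipc h (S.Q.cell e) ≤ K * lipc g (S.Q.cell e)) : S.A h c ≤ K * S.A g c := by
  classical
  rw [Src.A, Src.A, ← ENNReal.tsum_mul_left]
  refine ENNReal.tsum_le_tsum fun e => ?_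
  split_ifs with he
  · exact H e he.1 he.2
  · exact zero_le

variable {C C₁ C₂ : ℝ≥0} {CM CM₁ CM₂ : ℝ≥0 → ℝ≥0} {X X' H H' H₁ H₂ : Set S.Q.ι} {η η' : ℝ≥0∞}

theorem ct_mono (c : Ct2 C₁ CM₁ S g h X H η) (hC : C₁ ≤ C₂) (hM : ∀ M, CM₁ M ≤ CM₂ M)
    (hX : X ⊆ X') (hH : H' ⊆ H) (hη : η ≤ η') : Ct2 C₂ CM₂ S g h X' H' η' := by
  have m : ∀ φ : S.Q.ι, (S.Q.dim φ = 3 ∨ (S.Q.dim φ = 2 ∧ φ ∉ X')) →
      (S.Q.dim φ = 3 ∨ (S.Q.dim φ = 2 ∧ φ ∉ X)) := fun φ hφ =>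
    hφ.imp_right fun k => ⟨k.1, fun k' => k.2 (hX k')⟩
  refine ⟨fun e he hx => (c.wire e he fun k => hx (hX k)).trans ?_,
    fun φ hφ => (c.sum φ hφ).trans ?_, fun φ hφ => (c.keep φ (m φ hφ)).trans ?_,
    fun φ hH' hφ => (c.gain φ (hH hH') (m φ hφ)).trans ?_⟩
  all_goals gcongr
  all_goals exact hM _

/-- composition, the first step being exact -/
theorem ct_comp (c₁ : Ct2 C₁ CM₁ S g g₁ X H₁ 0) (c₂ : Ct2 C₂ CM₂ S g₁ h ∅ H₂ η)
    (hX : ∀ e φ, S.Q.cell e ⊆ S.Q.cell φ → e ∈ X → φ ∈ X) :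
    Ct2 (C₂ * C₁) (fun M => CM₂ M * (2 * CM₁ M + C₁)) S g h X (H₁ ∪ H₂) η := by
  have m : ∀ φ : S.Q.ι, (S.Q.dim φ = 3 ∨ (S.Q.dim φ = 2 ∧ φ ∉ X)) →
      (S.Q.dim φ = 3 ∨ (S.Q.dim φ = 2 ∧ φ ∉ (∅ : Set S.Q.ι))) := fun φ hφ =>
    hφ.imp_right fun k => ⟨k.1, notMem_empty φ⟩
  have a : ∀ φ : S.Q.ι, (S.Q.dim φ = 3 ∨ (S.Q.dim φ = 2 ∧ φ ∉ X)) →
      S.A g₁ φ ≤ (CM₁ (S.M φ) + C₁) * S.A g φ := by
    rintro φ (hφ | hφ)
    · exact (c₁.sum φ hφ).trans (by rw [add_zero]; gcongr; exact le_self_add)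
    · refine (A_le (K := C₁) fun e he hs => ?_).trans (by gcongr; exact le_add_self)
      simpa using c₁.wire e he fun k => hφ.2 (hX e φ hs k)
  refine ⟨fun e he hx => (c₂.wire e he (notMem_empty e)).trans ?_,
    fun φ hφ => (c₂.sum φ hφ).trans ?_, fun φ hφ => (c₂.keep φ (m φ hφ)).trans ?_, ?_⟩
  · have := c₁.wire e he hx
    rw [add_zero] at this
    push_cast
    rw [mul_assoc]
    gcongr
  · push_cast
    rw [mul_assoc]
    gcongr
    refine (a φ (Or.inl hφ)).trans ?_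
    gcongr
    rw [two_mul]
    exact le_self_add
  · have := c₁.keep φ hφ
    rw [add_zero] at this
    push_cast
    rw [mul_assoc]
    gcongr
    calc _ ≤ CM₁ (S.M φ) * (lipc g (S.Q.cell φ) + S.A g φ) +
          (CM₁ (S.M φ) + C₁) * (lipc g (S.Q.cell φ) + S.A g φ) :=
          add_le_add this ((a φ hφ).trans (by gcongr; exact le_add_self))
      _ = _ := by ring
  · rintro φ (hH | hH) hφ
    · have := c₁.gain φ hH hφ
      rw [add_zero] at this
      refine (c₂.keep φ (m φ hφ)).trans ?_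
      push_cast
      rw [mul_assoc]
      gcongr
      exact (add_le_add this (a φ hφ)).trans_eq (by ring)
    · refine (c₂.gain φ hH (m φ hφ)).trans ?_
      push_cast
      rw [mul_assoc]
      gcongr
      refine (a φ hφ).trans ?_
      gcongr
      rw [two_mul]
      exact le_self_add

/-- a Lipschitz map is applied to the result -/
theorem ct_post (c : Ct2 C CM S g h X H η) {K : ℝ≥0}
    (e : ∀ x ∈ Ω, ∀ y ∈ Ω, edist (h' x) (h' y) ≤ K * edist (h x) (h y)) :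
    Ct2 (K * C) (fun M => K * CM M) S g h' X H (K * η) := by
  have l : ∀ φ, lipc h' (S.Q.cell φ) ≤ K * lipc h (S.Q.cell φ) := fun φ =>
    lipc_le fun x hx y hy => e x (cell_sub φ hx) y (cell_sub φ hy)
  refine ⟨fun φ he hx => (l φ).trans ((mul_le_mul_right (c.wire φ he hx) _).trans_eq ?_),
    fun φ hφ => (A_le fun e _ _ => l e).trans ((mul_le_mul_right (c.sum φ hφ) _).trans_eq ?_),
    fun φ hφ => (l φ).trans ((mul_le_mul_right (c.keep φ hφ) _).trans_eq ?_),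
    fun φ hH hφ => (l φ).trans ((mul_le_mul_right (c.gain φ hH hφ) _).trans_eq ?_)⟩
  all_goals push_cast; ring

/-- a homeomorphism of the space supported in the target is applied -/
theorem post (g : ConHomeo Ω Λ) (Φ : Hom) (hΛ : IsOpen Λ) (e : ∀ y, y ∉ Λ → Φ.toFun y = y) :
    ∃ g' : ConHomeo Ω Λ, g'.toFun = Φ.toFun ∘ g.toFun := by
  have hi : Function.Injective Φ.toFun := injOn_univ.1 Φ.injOn
  have him : Φ.toFun '' Λ = Λ := by
    refine Subset.antisymm (ACC.mapsTo_of_id hi e).image_subset fun y hy => ?_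
    have h1 := Φ.right_inv (mem_univ y)
    refine ⟨Φ.invFun y, by_contra fun hn => hn ?_, h1⟩
    rw [e _ hn] at h1
    rwa [h1]
  exact ⟨g.trans ((Φ.restr (IsOpen.conicalSet hΛ) (subset_univ _)).cast rfl him), rfl⟩

/-! ### unit boxes -/

theorem wd_one (i : Fin 3) : wd 1 i = 1 := by fin_cases i <;> simp [wd]

theorem mem_one {κ : ℝ} {z : Z3} {y : E3} :
    y ∈ lbox 1 κ z ↔ ∀ i, z i + κ ≤ y i ∧ y i ≤ z i + 1 - κ := by
  simp only [mem_lbox, wd_one, mul_one]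

theorem eq_of_mem {κ κ' : ℝ} (hκ : 0 < κ + κ') {z z' : Z3} {y : E3} (h1 : y ∈ lbox 1 κ z)
    (h2 : y ∈ lbox 1 κ' z') : z = z' := by
  funext i
  have a := mem_one.1 h1 i
  have b := mem_one.1 h2 i
  have d : (z i : ℝ) < z' i + 1 := by linarith [a.1, b.2]
  have e : (z' i : ℝ) < z i + 1 := by linarith [a.2, b.1]
  have d' : z i < z' i + 1 := by exact_mod_cast d
  have e' : z' i < z i + 1 := by exact_mod_cast e
  omega

theorem mem_int {z : Z3} {y : E3} :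
    y ∈ interior (lbox 1 0 z) ↔ ∀ i, z i < y i ∧ y i < z i + 1 := by
  rw [Rd.lbox_eq, Rd.interior_box]
  simp only [Rd.obox, wd_one, mul_one, mem_ofPred_eq]

theorem eq_of_int {z z' : Z3} {y : E3} (h1 : y ∈ interior (lbox 1 0 z))
    (h2 : y ∈ lbox 1 0 z') : z = z' := by
  funext i
  have a := mem_int.1 h1 i
  have b := mem_one.1 h2 i
  have d : (z i : ℝ) < z' i + 1 := by linarith [a.1, b.2]
  have e : (z' i : ℝ) < z i + 1 := by linarith [a.2, b.1]
  have d' : z i < z' i + 1 := by exact_mod_cast d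
  have e' : z' i < z i + 1 := by exact_mod_cast e
  omega

theorem sub_int {κ : ℝ} (hκ : 0 < κ) (z : Z3) : lbox 1 κ z ⊆ interior (lbox 1 0 z) :=
  fun _ hy => mem_int.2 fun i =>
    ⟨by linarith [(mem_one.1 hy i).1], by linarith [(mem_one.1 hy i).2]⟩

theorem dist_le_one {z : Z3} {y y' : E3} (h1 : y ∈ lbox 1 0 z) (h2 : y' ∈ lbox 1 0 z) :
    dist y y' ≤ 1 := (dist_pi_le_iff zero_le_one).2 fun i => by
  have a := mem_one.1 h1 i
  have b := mem_one.1 h2 i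
  rw [Real.dist_eq, abs_le]
  constructor <;> linarith [a.1, a.2, b.1, b.2]

theorem int_sub {B : Set Z3} {z : Z3} (hz : z ∈ B) :
    interior (lbox 1 0 z) ⊆ interior (ubox 1 0 B) :=
  interior_mono (subset_biUnion_of_mem (u := lbox 1 0) hz)

/-- gluing over unit boxes -/
theorem glue {B : Set Z3} (hB : B.Finite) (Θ : Z3 → Hom)
    (out : ∀ z ∈ B, ∀ y, y ∉ interior (lbox 1 0 z) → (Θ z).toFun y = y) :
    ∃ Φ : Hom, (∀ y, (∀ z ∈ B, y ∉ interior (lbox 1 0 z)) → Φ.toFun y = y) ∧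
      (∀ z y, Φ.toFun y ∈ lbox 1 0 z ↔ y ∈ lbox 1 0 z) ∧
      (∀ z ∈ B, ∀ y ∈ lbox 1 0 z, Φ.toFun y = (Θ z).toFun y) ∧
      ∀ (K : ℝ) (Y : Set E3), 0 ≤ K → (∀ z ∈ B, ∀ y ∈ Y, ∀ y' ∈ Y,
        dist ((Θ z).toFun y) ((Θ z).toFun y') ≤ K * dist y y') →
        ∀ y ∈ Y, ∀ y' ∈ Y, dist (Φ.toFun y) (Φ.toFun y') ≤ (2 * K + 1) * dist y y' := by
  obtain ⟨Φ, e1, e2⟩ := ACC.patch hB.toFinset Θ (fun z => interior (lbox 1 0 z))
    (fun z _ z' _ h => disjoint_left.2 fun y h1 h2 => h (eq_of_int h1 (interior_subset h2)))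
    fun z hz => out z (hB.mem_toFinset.1 hz)
  simp only [Finite.mem_toFinset] at e1 e2
  have m1 : ∀ z ∈ B, ∀ y ∈ interior (lbox 1 0 z), Φ.toFun y ∈ interior (lbox 1 0 z) :=
    fun z hz y hy => e1 z hz hy ▸ ACC.mapsTo_of_id (injOn_univ.1 (Θ z).injOn) (out z hz) hy
  have m2 : ∀ y, (∃ z ∈ B, y ∈ interior (lbox 1 0 z)) ∨ ∀ z ∈ B, y ∉ interior (lbox 1 0 z) :=
    fun y => by simpa only [not_exists, not_and] using em (∃ z ∈ B, y ∈ interior (lbox 1 0 z))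
  refine ⟨Φ, e2, fun z y => ?_, fun z hz y hy => ?_, fun K Y hK lip y hy y' hy' => ?_⟩
  · rcases m2 y with ⟨z', hz', h⟩ | h
    · exact ⟨fun h' => eq_of_int (m1 z' hz' y h) h' ▸ interior_subset h,
        fun h' => eq_of_int h h' ▸ interior_subset (m1 z' hz' y h)⟩
    · rw [e2 y h]
  · rcases m2 y with ⟨z', hz', h⟩ | h
    · obtain rfl := eq_of_int h hy
      exact e1 z' hz' h
    · rw [e2 y h, out z hz y (h z hz)]
  · have n0 : 0 ≤ K * dist y y' := mul_nonneg hK dist_nonneg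
    have n1 : 0 ≤ dist y y' := dist_nonneg
    rcases m2 y with ⟨z, hz, h⟩ | h <;> rcases m2 y' with ⟨z', hz', h'⟩ | h'
    · by_cases e : z = z'
      · subst e
        rw [e1 z hz h, e1 z hz h']
        linarith [lip z hz y hy y' hy']
      · have a1 := lip z hz y hy y' hy'
        have a2 := lip z' hz' y hy y' hy'
        rw [out z hz y' fun k => e (eq_of_int k (interior_subset h'))] at a1
        rw [out z' hz' y fun k => e (eq_of_int h (interior_subset k))] at a2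
        rw [e1 z hz h, e1 z' hz' h']
        linarith [dist_triangle4 ((Θ z).toFun y) y' y ((Θ z').toFun y'), dist_comm y y']
    · have a1 := lip z hz y hy y' hy'
      rw [out z hz y' (h' z hz)] at a1
      rw [e1 z hz h, e2 y' h']
      linarith
    · have a1 := lip z' hz' y hy y' hy'
      rw [out z' hz' y (h z' hz')] at a1
      rw [e1 z' hz' h', e2 y h]
      linarith
    · rw [e2 y h, e2 y' h']
      linarith

end P073.Mo.Tl
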