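import Vale.Agent.P073Y.Mo.Sk2
import Vale.Agent.P073Y.B.Lay
import Vale.Agent.P073Y.B.Cer

/-!
# The mosaic: from one box to a finite family of boxes
-/

open Set Metric Topology Filter MeasureTheory
open scoped NNReal ENNReal

namespace P073.Mo

open P073.Top P073.Zn P073.B

theorem mos2_of (H : MOS1) : MOS2 := by
  obtain ⟨v₀, C, CM, hv₀, hC, H⟩ := H
  refine ⟨v₀, C, fun M => max (CM M) 1, hv₀, hC, fun N v hN hv => ?_⟩
  obtain ⟨δ, hδ, H⟩ := H N v hN hv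
  refine ⟨min δ (1 / 200), by positivity, fun r' ϑ hr' hϑ => ?_⟩
  obtain ⟨r, hr, H⟩ := H r' ϑ hr' hϑ
  refine ⟨min r (1 / 1000), by positivity, ?_⟩
  intro Ω Λ S g Bp G μ η hF hΩ hΛ hB hG hη hs hz
  have : Finite Bp := hB
  have k0 : ∀ {a b m : ℝ}, 0 < m → min a b * m ≤ a * m := fun hm =>
    mul_le_mul_of_nonneg_right (min_le_left _ _) hm.le
  have k1 : ∀ {a b m : ℝ}, 0 < b → 0 < m → m ≤ 1 → min a b * m ≤ b := fun hb hm h1 =>
    (mul_le_mul_of_nonneg_right (min_le_right _ _) hm.le).trans (mul_le_of_le_one_right hb.le h1)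
  choose h Bf G' e1 e2 e3 e4 e5 e6 e7 e8 e9 using fun z : Bp => H S g z G (μ z) η hF hΩ hΛ hG hη
    ((subset_biUnion_of_mem (u := fun z => lbox N 0 z) z.2).trans hs) (hz z z.2).1 (hz z z.2).2.1
    (hz z z.2).2.2.1 (hz z z.2).2.2.2.1 fun c hc x hx y hy =>
      ((hz z z.2).2.2.2.2 c hc x hx y hy).trans (k0 (hz z z.2).1)
  obtain ⟨F, L⟩ := layer4 S g h (fun z : Bp => lbox N (1 / 800) z)
    (fun z => (isCompact_lbox _ _ _).isClosed) (lfIn_finite _ _)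
    (fun z z' hne => disjoint_left.2 fun y h1 h2 =>
      hne (Subtype.ext (eq_of_lbox hN (by norm_num) h1 h2))) e1
  have m1 : ∀ z, lbox N (1 / 800) z ⊆ lbox N (1 / 1000) z := lbox_mono N (by norm_num)
  have m2 : ∀ z, lbox N (1 / 200) z ⊆ lbox N (1 / 800) z := lbox_mono N (by norm_num)
  have m3 : ∀ z, lbox N (1 / 100) z ⊆ lbox N (1 / 800) z := lbox_mono N (by norm_num)
  have one : ∀ (z z' : Bp) c, c ∈ hit S g.toFun (lbox N (1 / 1000) z) →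
      c ∈ hit S g.toFun (lbox N (1 / 800) z') → z' = z := fun z z' c h1 h2 => by
    obtain ⟨x, hx, h3⟩ := mem_hit.1 h1
    obtain ⟨y, hy, h4⟩ := mem_hit.1 h2
    have := lbox_dist h3 (((hz z z.2).2.2.2.2 c h1 y hy x hx).trans
      (k1 (by norm_num) (hz z z.2).1 (hz z z.2).2.1))
    exact Subtype.ext (eq_of_lbox hN (by norm_num) h4 this)
  have on : ∀ (z : Bp) c, c ∈ hit S g.toFun (lbox N (1 / 1000) z) →
      EqOn F.toFun (h z).toFun (S.Q.cell c) := fun z c hc =>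
    L.eqOn fun z' hne h2 => hne (one z z' c hc h2)
  classical
  refine ⟨F, fun z => if hz : z ∈ Bp then Bf ⟨z, hz⟩ else fun _ => ∅, ⋃ z, G' z,
    fun x hx h1 => L.off x hx fun z h2 => h1 (mem_biUnion z.2 h2),
    fun x hx z hz h1 => (L.iff ⟨z, hz⟩ x hx).2 h1, ?_, fun z hz => ?_, isOpen_iUnion e4,
    fun z hzB => ?_⟩
  · refine L.ct2 hC (fun _ => le_max_right _ _)
      (fun z z' hne => disjoint_left.2 fun c h1 h2 => hne (one z' z c (hit_mono (m1 _) h2) h1))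
      (fun z => (e2 z).mono le_rfl (fun _ => le_max_left _ _) Subset.rfl Subset.rfl le_rfl)
      (fun z c _ h2 => hit_mono (subset_biUnion_of_mem
        (u := fun z => thickening (μ z) (G ∩ lbox N (1 / 800) z)) z.2) h2) fun c hc => ?_
    obtain ⟨x, hx, h1⟩ := mem_hit.1 hc
    obtain ⟨z, hz, h1⟩ := mem_iUnion₂.1 h1
    have h2 := (L.iff ⟨z, hz⟩ x (cell_sub c hx)).1 (m2 _ h1)
    exact ⟨⟨z, hz⟩, mem_hit.2 ⟨x, hx, h2⟩,
      mem_hit.2 ⟨x, hx, L.on ⟨z, hz⟩ x (cell_sub c hx) h2 ▸ h1⟩⟩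
  · intro z' hz' c hc x hx h1 i hi
    obtain rfl : z = z' := hz'.symm
    have h2 := on ⟨z, hz⟩ c (mem_hit.2 ⟨x, hx,
      m1 _ ((L.iff ⟨z, hz⟩ x (cell_sub c hx)).1 (m3 _ h1))⟩)
    simp only [dif_pos hz]
    rw [h2 hx] at h1 hi ⊢
    exact (e3 ⟨z, hz⟩ z rfl c hc x hx h1 i hi).congr h2
  · simp only [dif_pos hzB]
    refine ⟨e6 ⟨z, hzB⟩, fun c hc => (e7 ⟨z, hzB⟩ c hc).congr (on ⟨z, hzB⟩ c hc),
      (measure_mono (sdiff_subset_sdiff_right (subset_iUnion G' ⟨z, hzB⟩))).trans (e8 ⟨z, hzB⟩), ?_⟩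
    refine ((e9 ⟨z, hzB⟩).mono (fun y hy => ?_) (k0 (hz z hzB).1)).congr fun x hx h1 => ?_
    · obtain ⟨z', h1⟩ := mem_iUnion.1 hy.1
      obtain rfl : z' = ⟨z, hzB⟩ :=
        Subtype.ext (eq_of_lbox hN (by norm_num) (e5 z' h1) hy.2)
      exact ⟨h1, hy.2⟩
    · obtain ⟨y, hy, h2⟩ := mem_thickening_iff.1 h1
      have h3 := lbox_dist hy.2
        (h2.le.trans (k1 (by norm_num) (hz z hzB).1 (hz z hzB).2.1))
      exact (L.on ⟨z, hzB⟩ x hx ((L.iff ⟨z, hzB⟩ x hx).1 (lbox_mono N (by norm_num) z h3))).symm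

end P073.Mo
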