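import Vale.Agent.P073Y.B.Defs2
import Vale.Agent.P073Y.Mo.Lat

/-!
# The mosaic: statements of the pieces
-/

open Set Metric Topology Filter MeasureTheory
open scoped NNReal ENNReal

namespace P073.Mo

open P073.Top P073.Zn P073.B

/-- aligned holes, the small round and the squeeze, in unit boxes -/
def SML : Prop := ∀ a : ℝ, 0 < a → a ≤ 1 / 16 →
  ∃ (C K : ℝ≥0) (CM : ℝ≥0 → ℝ≥0), 1 ≤ C ∧ 1 ≤ K ∧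
  ∀ {Ω Λ : Set E3} (S : Src Ω) (g : ConHomeo Ω Λ) (B : Set Z3) (c : Z3 → E3) (ε o : ℝ)
    (η : ℝ≥0∞), Fc S → IsOpen Ω → IsOpen Λ → B.Finite → 0 < ε → ε ≤ 1 / 10 → 0 < o →
  K * o ≤ 1 → 0 < η → ubox 1 0 (nbr 1 B) ⊆ Λ → S.Osc g.toFun (ubox 1 0 (nbr 1 B)) o →
  (∀ z ∈ nbr 1 B, dist (c z) (cen z) ≤ 1 / 5 ∧ Cer S g.toFun {c z} a) →
  ∃ h : ConHomeo Ω Λ,
    (∀ x ∈ Ω, g.toFun x ∉ interior (ubox 1 0 (nbr 1 B)) → h.toFun x = g.toFun x) ∧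
    (∀ x ∈ Ω, dist (h.toFun x) (g.toFun x) ≤ 4) ∧
    (∀ φ, OscC S g.toFun φ o → OscC S h.toFun φ (K * o)) ∧
    Ct2 C CM S g.toFun h.toFun (hit S g.toFun (⋃ z ∈ nbr 1 B, ball (c z) a))
      (hit S g.toFun (ubox 1 0 B)) η ∧
    ∀ z ∈ nbr 1 B, ∃ l : ℝ, 0 < l ∧ Lat S h.toFun (lbox 1 ε z) (cen z) l

/-- the mosaic in one box -/
def MOS1 : Prop := ∃ (v₀ : ℝ) (C : ℝ≥0) (CM : ℝ≥0 → ℝ≥0), 0 < v₀ ∧ 1 ≤ C ∧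
  ∀ (N : ℕ) (v : ℝ), 1 ≤ N → 0 < v → ∃ δ : ℝ, 0 < δ ∧ ∀ r' ϑ : ℝ, 0 < r' → 0 < ϑ →
  ∃ r : ℝ, 0 < r ∧ ∀ {Ω Λ : Set E3} (S : Src Ω) (g : ConHomeo Ω Λ) (z : Z3) (G : Set E3)
    (μ : ℝ) (η : ℝ≥0∞), Fc S → IsOpen Ω → IsOpen Λ → IsOpen G → 0 < η → lbox N 0 z ⊆ Λ →
  0 < μ → μ ≤ 1 → volume (lbox N (1 / 800) z \ G) ≤ ENNReal.ofReal v₀ →
  Cer S g.toFun (G ∩ lbox N (1 / 800) z) μ → S.Osc g.toFun (lbox N (1 / 1000) z) (r * μ) →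
  ∃ (h : ConHomeo Ω Λ) (Bf : Fin 3 → Set ℝ) (G' : Set E3),
    (∀ x ∈ Ω, g.toFun x ∉ lbox N (1 / 800) z → h.toFun x = g.toFun x) ∧
    Ct2 C CM S g.toFun h.toFun (hit S g.toFun (thickening μ (G ∩ lbox N (1 / 800) z)))
      (hit S h.toFun (lbox N (1 / 200) z)) η ∧
    Rims S h.toFun N {z} Bf ∧ IsOpen G' ∧ G' ⊆ lbox N (1 / 200) z ∧
    (∀ k, Thin (Bf k) (r' * μ) ϑ) ∧
    (∀ c ∈ hit S g.toFun (lbox N (1 / 1000) z), OscC S h.toFun c (r' * μ)) ∧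
    volume (lbox N (1 / 100) z \ G') ≤ ENNReal.ofReal v ∧
    Cer S h.toFun (G' ∩ lbox N (1 / 100) z) (δ * μ)

end P073.Mo
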