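import Vale.Agent.P073Y.Mo.Holes
import Vale.Agent.P073Y.Mo.Sk2

/-!
# Holes, the small round and the squeeze in unit boxes
-/

open Set Metric Topology Filter MeasureTheory
open scoped NNReal ENNReal

namespace P073.Mo

open P073.Top P073.Zn P073.B P073.Mo.Tl

namespace Sm

theorem Icc_eq (κ : ℝ) (z : Z3) :
    Icc (fun i => (z i : ℝ) + κ) (fun i => (z i : ℝ) + 1 - κ) = lbox 1 κ z := by
  ext y
  rw [mem_one, mem_Icc, Pi.le_def, Pi.le_def, ← forall_and]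

theorem Icc_eq0 (z : Z3) : Icc (fun i => (z i : ℝ)) (fun i => (z i : ℝ) + 1) = lbox 1 0 z := by
  simpa using Icc_eq 0 z

/-- the squeeze in all boxes of `B` -/
theorem sqz_all (hQ : SQZ) {B : Set Z3} (hB : B.Finite) {ε : ℝ} (h0 : 0 < ε) (h1 : ε ≤ 1 / 10) :
    ∃ Φ : Hom, (∀ y, y ∉ interior (ubox 1 0 B) → Φ.toFun y = y) ∧
      (∀ y, dist (Φ.toFun y) y ≤ 1) ∧
      (∀ y y', dist (Φ.toFun y) (Φ.toFun y') ≤ 9 * dist y y') ∧
      ∀ z ∈ B, ∀ y, Φ.toFun y ∈ lbox 1 ε z → y ∈ lbox 1 (12 / 100) z ∧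
        Φ.toFun y = cen z + ((1 - 2 * ε) / (76 / 100)) • (y - cen z) := by
  choose Θ t1 t2 t3 using fun z : Z3 => hQ (fun i => (z i : ℝ)) (fun i => (z i : ℝ) + 1)
    (12 / 100) ε h0 (by linarith) fun i => by linarith
  simp only [Icc_eq, Icc_eq0] at t2 t3
  obtain ⟨Φ, g1, g2, g3, g4⟩ := glue hB Θ fun z _ => t2 z
  refine ⟨Φ, fun y hy => g1 y fun z hz k => hy (int_sub hz k), fun y => ?_, fun y y' => ?_,
    fun z hz y hy => ?_⟩
  · obtain ⟨z, hz⟩ := exists_lbox le_rfl y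
    exact dist_le_one ((g2 z y).2 hz) hz
  · have := g4 4 univ (by norm_num) (fun z _ u _ u' _ => by
      simpa using (t1 z).dist_le_mul u u') y (mem_univ _) y' (mem_univ _)
    linarith
  · have e := g3 z hz y ((g2 z y).1 (lbox_mono 1 h0.le z hy))
    rw [e] at hy ⊢
    have k := (t3 z y).1.1 hy
    refine ⟨k, funext fun i => ?_⟩
    rw [(t3 z y).2 k i]
    simp only [Pi.add_apply, Pi.smul_apply, Pi.sub_apply, smul_eq_mul, cen]
    field_simp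
    ring

theorem deep {z : Z3} {y : E3} (hy : y ∈ lbox 1 (12 / 100) z) (i : Fin 3) (n : ℤ) :
    11 / 100 < |y i - n * wd 1 i| := by
  have h := mem_one.1 hy i
  rw [wd_one, mul_one]
  rcases le_or_gt n (z i) with k | k
  · have : (n : ℝ) ≤ z i := by exact_mod_cast k
    exact lt_of_lt_of_le (by linarith [h.1]) (le_abs_self _)
  · have : (z i : ℝ) + 1 ≤ n := by exact_mod_cast k
    exact lt_of_lt_of_le (by linarith [h.2]) (neg_le_abs _)

end Sm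

open Sm

theorem sml_of {p : ℝ} (hH : HOLEB) (hQ : SQZ) (hR : ROUND4 p) : SML := by
  intro a ha ha'
  obtain ⟨C₂, K₂, CM₂, hC₂, hH⟩ := Ho.holes hH ha ha'
  obtain ⟨c₀, -, hR⟩ := hR
  obtain ⟨C₃, CM₃, hC₃, hR⟩ := hR (1 / 1000) (by norm_num) le_rfl
  obtain ⟨K₃, hK₃, hR⟩ := hR (1 / 1000) (by norm_num) le_rfl
  refine ⟨9 * (C₃ * C₂), K₂ + 400 * (K₃ * C₂) + 9 * (C₃ * C₂),
    fun M => 9 * (CM₃ M * (2 * CM₂ M + C₂)),
    one_le_mul (by norm_num) (one_le_mul hC₃ hC₂),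
    (one_le_mul (by norm_num) (one_le_mul hC₃ hC₂)).trans le_add_self,
    fun {Ω Λ} S g B c ε o η hF hΩ hΛ hB hε hε' ho hK hη hsub hO hc => ?_⟩
  have c2 : (1 : ℝ) ≤ C₂ := hC₂
  have c3 : (1 : ℝ) ≤ C₃ := hC₃
  have k3 : (1 : ℝ) ≤ K₃ := hK₃
  have k2 : (0 : ℝ) ≤ K₂ * o := by positivity
  have k4 : (0 : ℝ) ≤ C₃ * (C₂ * o) := by positivity
  have k5 : (0 : ℝ) < C₂ * o := by positivity
  have k6 : C₂ * o ≤ K₃ * (C₂ * o) := le_mul_of_one_le_left k5.le k3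
  have hK' : (K₂ + 400 * (K₃ * C₂) + 9 * (C₃ * C₂) : ℝ≥0) * o =
      K₂ * o + 400 * (K₃ * (C₂ * o)) + 9 * (C₃ * (C₂ * o)) := by push_cast; ring
  rw [hK'] at hK ⊢
  have hB' := nbr_finite hB 1
  obtain ⟨g₂, a1, a2, a3, a4, a5⟩ := hH S g (nbr 1 B) c o hΛ hB' ho (by linarith) hsub hO hc
  have ub : ∀ (B' : Set Z3) x, g₂.toFun x ∈ ubox 1 0 B' ↔ g.toFun x ∈ ubox 1 0 B' :=
    fun B' x => by simp only [ubox, mem_iUnion, a2]
  have hO₂ : S.Osc g₂.toFun (ubox 1 0 (nbr 1 B)) (C₂ * o) := fun φ hφ => by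
    obtain ⟨x, hx, k⟩ := mem_hit.1 hφ
    exact a3 φ (hO φ (mem_hit.2 ⟨x, hx, (ub _ x).1 k⟩))
  have rims : Rims2 S g₂.toFun 1 (nbr 1 B) fun _ _ => ∅ := by
    intro z hz z' hz' φ _ x hx hm i hi
    rw [show z' = z from hz'] at hm hi
    obtain ⟨m, hm1, L⟩ := a5 _ hz
    have m0 : (0 : ℝ) < m := by exact_mod_cast hm1
    have hs : g₂.toFun '' S.Q.cell φ ⊆ lbox 1 (1 / 400) z := by
      rintro _ ⟨w, hw, rfl⟩
      exact lbox_mono 1 (by linarith) _ (lbox_dist hm (hO₂ φ (mem_hit.2 ⟨x, hx,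
        mem_biUnion hz (lbox_mono 1 (by norm_num) _ hm)⟩) w hw x hx))
    rw [wd_one] at hi
    rcases hi with hi | hi
    · refine L.ok (by positivity) hs _ i (-m) ?_
      rw [hi, cen]
      push_cast
      field_simp
      ring
    · refine L.ok (by positivity) hs _ i m ?_
      rw [hi, cen]
      push_cast
      field_simp
      ring
  obtain ⟨h₃, Ψ, b1, b2, b3, b4, -⟩ := hR S g₂ 1 B (C₂ * o) (fun _ _ => ∅) (η / 9) ∅
    (fun _ => AffineMap.const ℝ E2 0) (fun _ => 0) hF hΩ hΛ le_rfl hB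
    (ENNReal.div_pos hη.ne' (by norm_num)) k5 (by linarith) hsub hO₂
    (fun _ _ _ => ⟨isClosed_empty, fun _ _ _ => by simp⟩) rims fun _ k => k.elim
  obtain ⟨Φ, q1, q2, q3, q4⟩ := sqz_all hQ hB' hε hε'
  obtain ⟨h, hh⟩ := post h₃ Φ hΛ fun y hy => q1 y fun k => hy (hsub (interior_subset k))
  have he : ∀ x, h.toFun x = Φ.toFun (h₃.toFun x) := fun x => congrFun hh x
  refine ⟨h, fun x hx k => ?_, fun x hx => ?_, fun φ hφ x hx y hy => ?_, ?_, fun z hz => ?_⟩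
  · have e := a1 x hx k
    rw [he, b2 x hx (Or.inl (e ▸ k)), e, q1 _ k]
  · obtain ⟨z, hz⟩ := exists_lbox le_rfl (g.toFun x)
    have h1 := (a2 x z).2 hz
    have h2 := dist_le_one h1 hz
    have h3 := dist_le_one (b1.keep z h1) h1
    have h4 := b3 x hx
    have h5 := q2 (h₃.toFun x)
    rw [he]
    linarith [dist_triangle4 (Φ.toFun (h₃.toFun x)) (h₃.toFun x) (Ψ (g₂.toFun x)) (g₂.toFun x),
      dist_triangle (Φ.toFun (h₃.toFun x)) (g₂.toFun x) (g.toFun x)]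
  · have h1 := a3 φ hφ x hx y hy
    have h2 := (b1.lip.dist_le_mul (g₂.toFun x) (g₂.toFun y)).trans
      (mul_le_mul_of_nonneg_left h1 C₃.2)
    have h3 := b3 x (cell_sub φ hx)
    have h4 := b3 y (cell_sub φ hy)
    have h5 := q3 (h₃.toFun x) (h₃.toFun y)
    rw [he, he]
    linarith [dist_triangle4_right (h₃.toFun x) (h₃.toFun y) (Ψ (g₂.toFun x)) (Ψ (g₂.toFun y))]
  · have d1 := ct_comp a4 b4 fun e φ hs k => hit_face hs k
    have d2 := ct_post (h' := h.toFun) (K := 9) d1 fun x _ y _ => by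
      rw [he, he, edist_dist, edist_dist, ← ENNReal.ofReal_coe_nnreal,
        ← ENNReal.ofReal_mul (NNReal.coe_nonneg _)]
      exact ENNReal.ofReal_le_ofReal (q3 _ _)
    refine ct_mono d2 le_rfl (fun _ => le_rfl) Subset.rfl (fun φ hφ => ?_) ?_
    · obtain ⟨x, hx, k⟩ := mem_hit.1 hφ
      have k' := (ub B x).2 k
      by_cases hf : φ ∈ hit S g₂.toFun (ubox 1 (1 / 200) univ)
      · obtain ⟨w, hw, hm⟩ := mem_hit.1 hf
        obtain ⟨z', -, hm⟩ := mem_iUnion₂.1 hm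
        obtain ⟨z, hz, hk⟩ := mem_iUnion₂.1 k'
        have osc := hO₂ φ (mem_hit.2 ⟨x, hx, mem_biUnion (sub_nbr 1 B hz) hk⟩) w hw x hx
        have hn := near_of_mem le_rfl (by linarith) hm (lbox_dist hk osc)
        exact Or.inl (mem_hit.2 ⟨w, hw, mem_biUnion (nbr_mono le_rfl (singleton_subset_iff.2 hz) hn)
          (lbox_mono 1 (by norm_num) _ hm)⟩)
      · exact Or.inr ⟨mem_hit.2 ⟨x, hx, k'⟩, hf⟩
    · exact ENNReal.mul_div_le
  · obtain ⟨m, hm1, L⟩ := a5 _ hz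
    have m0 : (0 : ℝ) < m := by exact_mod_cast hm1
    have r0 : 0 < (1 - 2 * ε) / (76 / 100) := div_pos (by linarith) (by norm_num)
    refine ⟨(1 - 2 * ε) / (76 / 100) * (48 / (100 * m)), by positivity, ?_⟩
    have := L.map (h := h.toFun) (W' := lbox 1 ε z) (β := cen z) (γ := cen z)
      (t := (1 - 2 * ε) / (76 / 100)) fun x hx hw => by
      rw [he] at hw ⊢
      obtain ⟨s1, s2⟩ := q4 z hz _ hw
      have e : h₃.toFun x = g₂.toFun x := by
        refine b2 x hx (Or.inr ?_)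
        by_contra hn
        exact (Rd.mem_iff (M := {y : E3 | ¬ ∀ (i : Fin 3) (n : ℤ), 11 / 100 < |y i - n * wd 1 i|})
          g₂ h₃ (fun w hw k => b2 w hw (Or.inr (not_not.1 k))) hx).2 hn (deep s1)
      rw [s2, e]
      exact ⟨lbox_mono 1 (by norm_num) z (e ▸ s1), rfl⟩
    simpa using this

end P073.Mo
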