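import Vale.Agent.P073Y.Mo.One
import Vale.Agent.P073Y.Mo.Small
import Vale.Agent.P073Y.Mo.Glue2
import Vale.Agent.P073Y.Op.Pack
import Vale.Agent.P073Y.B.HoleB
import Vale.Agent.P073Y.B.Sqz

/-!
# The mosaic
-/

namespace P073.Mo

theorem mos2 {p : ℝ} (hR : B.ROUND4 p) : B.MOS2 :=
  mos2_of (mos1_of Op.pack (sml_of B.holeb B.sqz hR))

end P073.Mo
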