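import Vale.Agent.P073Y.B.Affa
import Vale.Agent.P073Y.Zn.Bas

/-!
# Lattice cells under a map which is Lipschitz relative to the norm of the matrix
-/

set_option linter.all false

open Set Metric
open scoped NNReal ENNReal

namespace P073.Mo

open P073.Top P073.Zn P073.B
open P073.M2 (hull)

variable {Ω : Set E3} (S : Src Ω) {g h : E3 → E3} {c : S.Q.ι} {ξ : E3 ≃ᵃ[ℝ] E3} {u y₀ : E3}
  {A : E3 →L[ℝ] E3} {o : ℝ}

namespace Ce

theorem diam (hc : 2 ≤ S.Q.dim c) : ∀ x ∈ S.Q.cell c, ∀ y ∈ S.Q.cell c,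
    dist x y ≤ 2 * (S.M c * S.r c) := fun x hx y hy => by
  obtain ⟨-, φ, -, -, l₂⟩ := S.chart c hc
  have h1 := l₂.dist_le_mul _ (φ.mapsTo hx) _ (φ.mapsTo hy)
  rw [φ.left_inv hx, φ.left_inv hy] at h1
  have h2 := dist_triangle_right (φ.toFun x) (φ.toFun y) 0
  have h3 := mem_closedBall.1 (φ.mapsTo hx)
  have h4 := mem_closedBall.1 (φ.mapsTo hy)
  refine h1.trans ?_
  push_cast
  nlinarith [mul_nonneg (S.M c).coe_nonneg (S.r c).coe_nonneg]

/-- an affine map of small oscillation has a small Lipschitz constant -/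
theorem lip (hc : 2 ≤ S.Q.dim c) (B : E3 →ᵃ[ℝ] E3)
    (ho : ∀ x ∈ S.Q.cell c, ∀ y ∈ S.Q.cell c, dist (B x) (B y) ≤ o) :
    ∀ x ∈ S.Q.cell c, ∀ y ∈ S.Q.cell c, S.r c * dist (B x) (B y) ≤ S.M c * dist x y * o := by
  intro x hx y hy
  obtain ⟨-, φ, hφ, l₁, -⟩ := S.chart c hc
  have hr : (0 : ℝ) < S.r c := S.r_pos c
  have h0 : (0 : Fin (S.Q.dim c) → ℝ) ∈ closedBall 0 1 := mem_closedBall_self zero_le_one
  have hx₀ := φ.mapsTo_inv h0
  rcases eq_or_ne x y with rfl | hne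
  · simp
  obtain ⟨s, hs, hb⟩ := Af.ray (S.Q.isCompact_cell c) hx₀ (vsub_mem_vectorSpan ℝ hx hy)
    (sub_ne_zero.2 hne)
  rw [← (S.cvx c).2.1] at hb
  have hb' := S.Q.bd_subset c hb
  have h1 := l₁.dist_le_mul _ hb' _ hx₀
  have h2 : φ.toFun (s • (x -ᵥ y) + φ.invFun 0) ∈ sphere 0 1 := hφ ▸ mem_image_of_mem _ hb
  rw [φ.right_inv h0, mem_sphere.1 h2, dist_eq_norm, add_sub_cancel_right, norm_smul,
    Real.norm_of_nonneg hs, vsub_eq_sub, ← dist_eq_norm] at h1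
  have h4 := ho _ hb' _ hx₀
  rw [show B (s • (x -ᵥ y) + φ.invFun 0) = B.linear (s • (x -ᵥ y)) + B (φ.invFun 0) from
    B.map_vadd _ _, map_smul, B.linearMap_vsub, dist_eq_norm, add_sub_cancel_right, norm_smul,
    Real.norm_of_nonneg hs, vsub_eq_sub, ← dist_eq_norm] at h4
  push_cast at h1
  rw [div_mul_eq_mul_div, le_div_iff₀ hr, one_mul] at h1
  calc _ ≤ S.M c * (s * dist x y) * dist (B x) (B y) := mul_le_mul_of_nonneg_right h1 dist_nonneg
    _ = S.M c * dist x y * (s * dist (B x) (B y)) := by ring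
    _ ≤ _ := mul_le_mul_of_nonneg_left h4 (by positivity)

/-- a three-cell is a full cube -/
theorem full (hc : S.Q.dim c = 3) (e : S.Q.cell c = ξ ⁻¹' hull u) (i : Fin 3) :
    (⌈u i⌉ : ℝ) = ⌊u i⌋ + 1 := by
  have h1 : vectorSpan ℝ (S.Q.cell c) = ⊤ :=
    Submodule.eq_top_of_finrank_eq (by rw [← (S.cvx c).2.2, hc]; simp)
  have h2 : ⌈u i⌉ ≠ ⌊u i⌋ := fun h => by
    have h3 : vectorSpan ℝ (S.Q.cell c) ≤
        LinearMap.ker ((LinearMap.proj i : E3 →ₗ[ℝ] ℝ).comp ξ.linear.toLinearMap) := by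
      rw [vectorSpan_def, Submodule.span_le]
      rintro _ ⟨x, hx, y, hy, rfl⟩
      rw [e] at hx hy
      have h4 : ξ.linear (x -ᵥ y) = ξ x - ξ y := ξ.toAffineMap.linearMap_vsub x y
      have a1 := hx.1 i
      have a2 := hx.2 i
      have a3 := hy.1 i
      have a4 := hy.2 i
      simp only [h] at a1 a2 a3 a4
      show ξ.linear (x -ᵥ y) i = 0
      rw [h4, Pi.sub_apply]
      linarith
    have h4 := h3 (h1 ▸ Submodule.mem_top (x := ξ.linear.symm fun _ => 1))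
    simpa using h4
  have h3 := Int.ceil_le_floor_add_one (u i)
  have h4 := Int.floor_le_ceil (u i)
  exact_mod_cast (by omega : ⌈u i⌉ = ⌊u i⌋ + 1)

theorem osc_hull {v w : E3} (hv : v ∈ hull u) (hw : w ∈ hull u) : dist v w ≤ 1 :=
  (dist_pi_le_iff zero_le_one).2 fun i => by
    have h : (⌈u i⌉ : ℝ) ≤ ⌊u i⌋ + 1 := by exact_mod_cast Int.ceil_le_floor_add_one (u i)
    exact abs_le.2 ⟨by linarith [hv.1 i, hw.2 i], by linarith [hv.2 i, hw.1 i]⟩

theorem lipc_mono (h : E3 → E3) {X Y : Set E3} (hX : X ⊆ Y) : lipc h X ≤ lipc h Y :=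
  iSup₂_le fun x hx => iSup₂_le fun y hy =>
    le_iSup₂_of_le x (hX hx) (le_iSup₂_of_le y (hX hy) le_rfl)

end Ce

open Ce

/-- the norm of the matrix is at most the oscillation on a three-cell -/
theorem norm_le_osc (hc : S.Q.dim c = 3) (e : S.Q.cell c = ξ ⁻¹' hull u)
    (hg : ∀ x ∈ S.Q.cell c, g x = y₀ + A (ξ x))
    (ho : ∀ x ∈ S.Q.cell c, ∀ y ∈ S.Q.cell c, dist (g x) (g y) ≤ o) : ‖A‖ ≤ o := by
  obtain ⟨x, hx⟩ := S.Q.cell_nonempty c
  refine A.opNorm_le_of_unit_norm (dist_nonneg.trans (ho x hx x hx)) fun v hv => ?_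
  have m : ∀ t : ℝ, |t| = 1 / 2 →
      ξ.symm ((fun i => (⌊u i⌋ : ℝ) + 1 / 2) + t • v) ∈ S.Q.cell c := fun t ht => by
    rw [e, mem_preimage, ξ.apply_symm_apply]
    have h1 : ∀ i, |t * v i| ≤ 1 / 2 := fun i => by
      rw [abs_mul, ht]
      linarith [(norm_le_pi_norm v i).trans_eq hv, Real.norm_eq_abs (v i)]
    refine ⟨fun i => ?_, fun i => ?_⟩ <;> simp only [Pi.add_apply, Pi.smul_apply, smul_eq_mul] <;>
      linarith [abs_le.1 (h1 i), full S hc e i]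
  have h1 := m (1 / 2) (by norm_num)
  have h2 := m (-(1 / 2)) (by norm_num)
  have h3 := ho _ h1 _ h2
  rw [hg _ h1, hg _ h2, dist_add_left, dist_eq_norm, ← map_sub, ξ.apply_symm_apply,
    ξ.apply_symm_apply, add_sub_add_left_eq_sub, ← sub_smul] at h3
  norm_num at h3
  exact h3

/-- a lattice cell has at most `27` faces -/
theorem A_le (h : E3 → E3)
    (hl : ∀ e, S.Q.cell e ⊆ S.Q.cell c → ∀ x ∈ S.Q.ocell e, S.Q.cell e = ξ ⁻¹' hull (ξ x)) :
    S.A h c ≤ 27 * lipc h (S.Q.cell c) := by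
  classical
  choose p hp using S.Q.ocell_nonempty
  have e := hl c Subset.rfl _ (hp c)
  let T := (S.Q.finite_faces c).toFinset
  have h1 : T.card ≤ 27 := by
    refine (Finset.card_le_card_of_injOn (t := Fintype.piFinset fun i =>
      Finset.Icc (2 * ⌊ξ (p c) i⌋) (2 * ⌊ξ (p c) i⌋ + 2)) (fun e i => ⌊ξ (p e) i⌋ + ⌈ξ (p e) i⌉)
      (fun e' he => Finset.mem_coe.2 (Fintype.mem_piFinset.2 fun i => ?_))
      fun e₁ h₁ e₂ h₂ k => S.Q.cell_injective ?_).trans_eq (by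
        simp [Fintype.card_piFinset, add_assoc])
    · have h2 : p e' ∈ ξ ⁻¹' hull (ξ (p c)) :=
        e ▸ (S.Q.finite_faces c).mem_toFinset.1 he (hp e').1
      have h3 := Int.le_floor.2 (h2.1 i)
      have h4 := Int.ceil_le.2 (h2.2 i)
      have h5 := Int.ceil_le_floor_add_one (ξ (p c) i)
      have h6 := Int.floor_le_ceil (ξ (p e') i)
      exact Finset.mem_Icc.2 ⟨by dsimp only; omega, by dsimp only; omega⟩
    · rw [hl e₁ ((S.Q.finite_faces c).mem_toFinset.1 h₁) _ (hp e₁),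
        hl e₂ ((S.Q.finite_faces c).mem_toFinset.1 h₂) _ (hp e₂), hull, hull]
      have h2 : ∀ i, ⌊ξ (p e₁) i⌋ = ⌊ξ (p e₂) i⌋ ∧ ⌈ξ (p e₁) i⌉ = ⌈ξ (p e₂) i⌉ := fun i => by
        have h3 : ⌊ξ (p e₁) i⌋ + ⌈ξ (p e₁) i⌉ = ⌊ξ (p e₂) i⌋ + ⌈ξ (p e₂) i⌉ := congrFun k i
        have h4 := Int.ceil_le_floor_add_one (ξ (p e₁) i)
        have h5 := Int.ceil_le_floor_add_one (ξ (p e₂) i)
        have h6 := Int.floor_le_ceil (ξ (p e₁) i)
        have h7 := Int.floor_le_ceil (ξ (p e₂) i)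
        omega
      simp only [(h2 _).1, (h2 _).2]
  rw [Src.A, tsum_eq_sum (s := T) fun e he => if_neg fun k =>
    he ((S.Q.finite_faces c).mem_toFinset.2 k.2)]
  refine (Finset.sum_le_card_nsmul _ _ (lipc h (S.Q.cell c)) fun e _ => ?_).trans ?_
  · split_ifs with k
    exacts [lipc_mono h k.2, zero_le]
  · rw [nsmul_eq_mul]
    exact mul_le_mul_left (by exact_mod_cast h1) _

/-- the control on a three-cell which meets a hole -/
theorem cell_hole {C : ℝ≥0} (hc : S.Q.dim c = 3)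
    (hl : ∀ e, S.Q.cell e ⊆ S.Q.cell c → ∀ x ∈ S.Q.ocell e, S.Q.cell e = ξ ⁻¹' hull (ξ x))
    (hg : ∀ x ∈ S.Q.cell c, g x = y₀ + A (ξ x))
    (hh : ∀ x ∈ S.Q.cell c, ∀ y ∈ S.Q.cell c, dist (h x) (h y) ≤ C * ‖A‖ * dist (ξ x) (ξ y)) :
    lipc h (S.Q.cell c) ≤ (C * (2 * S.M c ^ 2) : ℝ≥0) * S.A g c ∧
      S.A h c ≤ (C * (54 * S.M c ^ 2) : ℝ≥0) * S.A g c := by
  have key : lipc h (S.Q.cell c) ≤ (2 * S.M c ^ 2 : ℝ≥0) * S.A g c * C := by
    obtain ⟨x₀, hx₀⟩ := S.Q.ocell_nonempty c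
    have e := hl c Subset.rfl _ hx₀
    have hr : (0 : ℝ) < S.r c := S.r_pos c
    have hM : S.M c ≠ 0 := (zero_lt_one.trans_le (S.M_ge c)).ne'
    refine iSup₂_le fun x hx => iSup₂_le fun y hy => ENNReal.div_le_of_le_mul ?_
    rcases eq_or_ne C 0 with rfl | hC
    · simpa using hh x hx y hy
    rcases eq_or_ne x y with rfl | hne
    · simp
    rcases eq_or_ne (S.A g c) ⊤ with ht | ht
    · rw [ht, ENNReal.mul_top (by simpa using hM), ENNReal.top_mul (by simpa using hC),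
        ENNReal.top_mul (edist_pos.2 hne).ne']
      exact le_top
    have h1 := Af.osc S (AffineMap.const ℝ E3 y₀ + A.toLinearMap.toAffineMap.comp ξ.toAffineMap)
      (g := g) hg (d := ENNReal.ofReal (2 * (S.M c * S.r c))) fun x hx y hy =>
        edist_dist x y ▸ ENNReal.ofReal_le_ofReal (diam S (by omega) x hx y hy)
    lift S.A g c to ℝ≥0 using ht with a ha
    have h2 : ‖A‖ ≤ a * (2 * (S.M c * S.r c)) := norm_le_osc S hc e hg fun x hx y hy => by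
      have h3 := h1 x hx y hy
      rwa [edist_dist, ← ENNReal.ofReal_coe_nnreal, ← ENNReal.ofReal_mul a.coe_nonneg,
        ENNReal.ofReal_le_ofReal_iff (by positivity)] at h3
    have h3 := lip S (by omega) ξ.toAffineMap (fun x hx y hy => osc_hull (e.le hx) (e.le hy))
      x hx y hy
    rw [edist_dist, edist_dist, ← ENNReal.coe_mul, ← ENNReal.coe_mul, ← ENNReal.ofReal_coe_nnreal,
      ← ENNReal.ofReal_mul (NNReal.coe_nonneg _)]
    refine ENNReal.ofReal_le_ofReal ((hh x hx y hy).trans ?_)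
    push_cast
    calc _ ≤ C * (a * (2 * (S.M c * S.r c))) * dist (ξ x) (ξ y) := by gcongr
      _ = C * a * 2 * S.M c * (S.r c * dist (ξ x) (ξ y)) := by ring
      _ ≤ C * a * 2 * S.M c * (S.M c * dist x y * 1) :=
        mul_le_mul_of_nonneg_left h3 (by positivity)
      _ = _ := by ring
  refine ⟨key.trans_eq (by push_cast; ring), (A_le S h hl).trans
    ((mul_le_mul_right key _).trans_eq (by push_cast; ring))⟩

end P073.Mo
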