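import Vale.Agent.P073Y.Mo.Tool
import Vale.Agent.P073Y.Mo.Cell

/-!
# Aligned holes in a finite family of unit boxes
-/

open Set Metric Topology Filter
open scoped NNReal ENNReal

namespace P073.Mo.Ho

open P073.Top P073.Zn P073.B P073.Mo.Tl
open P073.M2 (hull)

variable {Ω Λ : Set E3}

/-- the data of a certified ball -/
theorem data {S : Src Ω} {g : ConHomeo Ω Λ} {c : E3} {a o : ℝ} (ha : 0 < a) (ho : o ≤ a / 2)
    (hΛ : ball c (a / 2) ⊆ Λ) (hO : S.Osc g.toFun (ball c (a / 2)) o)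
    (H : Cer S g.toFun {c} a) : ∃ (ξ : E3 ≃ᵃ[ℝ] E3) (A : E3 ≃L[ℝ] E3) (y₀ : E3),
      ‖(A : E3 →L[ℝ] E3)‖ ≤ o ∧
      (∀ φ, ∀ x ∈ S.Q.ocell φ, g.toFun x ∈ ball c a → S.Q.cell φ = ξ ⁻¹' hull (ξ x)) ∧
      ∀ x ∈ Ω, g.toFun x ∈ ball c a → g.toFun x = y₀ + A (ξ x) := by
  obtain ⟨ξ, b, h1, h2⟩ := H c rfl
  let T := ξ.symm.trans b
  have hT : ∀ u, T u = T 0 + T.linear.toContinuousLinearEquiv u := fun u => by
    have := T.map_vadd 0 u
    simp only [vadd_eq_add, add_zero] at this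
    rw [this, add_comm]
    rfl
  have h3 : ∀ x ∈ Ω, g.toFun x ∈ ball c a →
      g.toFun x = T 0 + T.linear.toContinuousLinearEquiv (ξ x) := fun x hx hb => by
    rw [← hT, h2 x hx hb]
    simp [T]
  refine ⟨ξ, T.linear.toContinuousLinearEquiv, T 0, ?_, h1, h3⟩
  have hD : Dense (Set.pi univ fun _ : Fin 3 => (range (Int.cast : ℤ → ℝ))ᶜ) :=
    dense_pi _ fun _ _ => (countable_range _).dense_compl ℝ
  have hc : Continuous T := T.toAffineMap.continuous_of_finiteDimensional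
  obtain ⟨u, hu, hub⟩ := hD.exists_mem_open (isOpen_ball.preimage hc)
    (U := T ⁻¹' ball c (a / 2)) ⟨T.symm c, by simpa using ha⟩
  have hx := g.mapsTo_inv (hΛ hub)
  have e1 := g.right_inv (hΛ hub)
  obtain ⟨φ, hφ⟩ := S.Q.exists_ocell (x := g.invFun (T u)) (by rw [S.carrier]; exact hx)
  have hb : g.toFun (g.invFun (T u)) ∈ ball c (a / 2) := e1.symm ▸ hub
  have hb' := ball_subset_ball (half_le_self ha.le) hb
  have e2 : ξ (g.invFun (T u)) = u := by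
    have := h2 _ hx hb'
    rw [e1] at this
    apply T.injective
    exact (congrArg b (ξ.symm_apply_apply _)).trans this.symm
  have e3 := h1 φ _ hφ hb'
  rw [e2] at e3
  have osc := hO φ ⟨_, mem_image_of_mem _ hφ.1, hb⟩
  have hg : ∀ x ∈ S.Q.cell φ, g.toFun x = T 0 + T.linear.toContinuousLinearEquiv (ξ x) :=
    fun x hx' => h3 x (cell_sub φ hx') (by
      have := osc x hx' _ hφ.1
      rw [mem_ball] at hb ⊢
      linarith [dist_triangle (g.toFun x) (g.toFun (g.invFun (T u))) c])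
  refine ContinuousLinearMap.opNorm_le_of_unit_norm
    (dist_nonneg.trans (osc _ hφ.1 _ hφ.1)) fun v hv => ?_
  have full : ∀ i, (⌈u i⌉ : ℝ) = ⌊u i⌋ + 1 := fun i => by
    exact_mod_cast (Int.ceil_eq_floor_add_one_iff_notMem (u i)).2 (hu i (mem_univ i))
  have m : ∀ t : ℝ, |t| = 1 / 2 →
      ξ.symm ((fun i => (⌊u i⌋ : ℝ) + 1 / 2) + t • v) ∈ S.Q.cell φ := fun t ht => by
    rw [e3, mem_preimage, ξ.apply_symm_apply]
    have h1 : ∀ i, |t * v i| ≤ 1 / 2 := fun i => by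
      rw [abs_mul, ht]
      linarith [(norm_le_pi_norm v i).trans_eq hv, Real.norm_eq_abs (v i)]
    refine ⟨fun i => ?_, fun i => ?_⟩ <;> simp only [Pi.add_apply, Pi.smul_apply, smul_eq_mul] <;>
      linarith [abs_le.1 (h1 i), full i]
  have k1 := m (1 / 2) (by norm_num)
  have k2 := m (-(1 / 2)) (by norm_num)
  have k3 := osc _ k1 _ k2
  rw [hg _ k1, hg _ k2, dist_add_left, dist_eq_norm, ← map_sub, ξ.apply_symm_apply,
    ξ.apply_symm_apply, add_sub_add_left_eq_sub, ← sub_smul] at k3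
  norm_num at k3
  exact k3

theorem ball_sub {z : Z3} {c : E3} {a : ℝ} (hc : dist c (cen z) ≤ 1 / 5) (ha : a ≤ 1 / 16) :
    ball c a ⊆ lbox 1 (1 / 5) z := fun y hy => mem_one.2 fun i => by
  have h1 := (dist_le_pi_dist y (cen z) i).trans (dist_triangle y c (cen z))
  rw [mem_ball] at hy
  rw [Real.dist_eq, abs_le, cen] at h1
  constructor <;> linarith [h1.1, h1.2]

/-- the holes -/
theorem holes (hH : HOLEB) {a : ℝ} (ha : 0 < a) (ha' : a ≤ 1 / 16) :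
    ∃ (C K : ℝ≥0) (CM : ℝ≥0 → ℝ≥0), 1 ≤ C ∧ ∀ {Ω Λ : Set E3} (S : Src Ω) (g : ConHomeo Ω Λ)
      (B : Set Z3) (c : Z3 → E3) (o : ℝ), IsOpen Λ → B.Finite → 0 < o → K * o ≤ 1 →
    ubox 1 0 B ⊆ Λ → S.Osc g.toFun (ubox 1 0 B) o →
    (∀ z ∈ B, dist (c z) (cen z) ≤ 1 / 5 ∧ Cer S g.toFun {c z} a) →
    ∃ h : ConHomeo Ω Λ,
      (∀ x ∈ Ω, g.toFun x ∉ interior (ubox 1 0 B) → h.toFun x = g.toFun x) ∧
      (∀ x z, h.toFun x ∈ lbox 1 0 z ↔ g.toFun x ∈ lbox 1 0 z) ∧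
      (∀ φ, OscC S g.toFun φ o → OscC S h.toFun φ (C * o)) ∧
      Ct2 C CM S g.toFun h.toFun (hit S g.toFun (⋃ z ∈ B, ball (c z) a))
        (hit S h.toFun (ubox 1 (1 / 400) B)) 0 ∧
      ∀ z ∈ B, ∃ m : ℕ, 1 ≤ m ∧ Lat S h.toFun (lbox 1 (1 / 400) z) (cen z) (48 / (100 * m)) := by
  obtain ⟨C, hC, hH⟩ := hH (a / 2) (half_pos ha) (by linarith)
  obtain ⟨l₀, hl₀, hH⟩ := hH 1 one_pos
  refine ⟨2 * C + 1, ⟨2 / a + 1 / l₀, by positivity⟩, fun M => C * (54 * M ^ 2) + (2 * C + 1),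
    le_add_self, fun {Ω Λ} S g B c o hΛ hB ho hK hsub hO hc => ?_⟩
  have hK' : (2 / a + 1 / l₀) * o ≤ 1 := hK
  have o1 : o ≤ a / 2 := by
    have : 2 / a * o ≤ 1 := by nlinarith [mul_pos (one_div_pos.2 hl₀) ho]
    rw [div_mul_eq_mul_div, div_le_one ha] at this
    linarith
  have o2 : o ≤ l₀ := by
    have : 1 / l₀ * o ≤ 1 := by nlinarith [mul_pos (div_pos two_pos ha) ho]
    rwa [div_mul_eq_mul_div, div_le_one hl₀, one_mul] at this
  have bs : ∀ z ∈ B, ball (c z) a ⊆ lbox 1 0 z := fun z hz =>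
    (ball_sub (hc z hz).1 ha').trans (lbox_mono 1 (by norm_num) z)
  have us : ∀ z ∈ B, lbox 1 0 z ⊆ ubox 1 0 B := fun z hz =>
    subset_biUnion_of_mem (u := lbox 1 0) hz
  have hb : ∀ z, ball (c z) (a / 2) ⊆ ball (c z) a := fun z =>
    ball_subset_ball (half_le_self ha.le)
  have key : ∀ z, ∃ (ξ : E3 ≃ᵃ[ℝ] E3) (A : E3 ≃L[ℝ] E3) (y₀ : E3), z ∈ B →
      ‖(A : E3 →L[ℝ] E3)‖ ≤ o ∧
      (∀ φ, ∀ x ∈ S.Q.ocell φ, g.toFun x ∈ ball (c z) a → S.Q.cell φ = ξ ⁻¹' hull (ξ x)) ∧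
      ∀ x ∈ Ω, g.toFun x ∈ ball (c z) a → g.toFun x = y₀ + A (ξ x) := fun z => by
    by_cases hz : z ∈ B
    · have hs := (hb z).trans ((bs z hz).trans (us z hz))
      obtain ⟨ξ, A, y₀, k⟩ := data ha o1 (hs.trans hsub)
        (fun φ hφ => hO φ (hφ.mono (inter_subset_inter_right _ hs))) (hc z hz).2
      exact ⟨ξ, A, y₀, fun _ => k⟩
    · exact ⟨.refl ℝ E3, .refl ℝ E3, 0, fun h => (hz h).elim⟩
  choose ξ A y₀ key using key
  have key2 : ∀ z, ∃ (Φ : Hom) (ε : Fin 3 → ℝ) (q : Z3) (m : ℕ), z ∈ B →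
      (∀ i, ε i = 1 ∨ ε i = -1) ∧ 1 ≤ m ∧ 48 / (100 * (m : ℝ)) ≤ 1 ∧
      (∀ y, y ∉ interior (lbox 1 0 z) → Φ.toFun y = y) ∧
      LipschitzOnWith C Φ.toFun (ball (c z) (a / 2))ᶜ ∧
      (∀ u u', dist (Φ.toFun (y₀ z + A z u)) (Φ.toFun (y₀ z + A z u')) ≤
        C * ‖(A z : E3 →L[ℝ] E3)‖ * dist u u') ∧
      ∀ y, Φ.toFun y ∈ lbox 1 (1 / 400) z → y ∈ ball (c z) (a / 2) ∧ ∀ u, y = y₀ z + A z u →
        Φ.toFun y = fun i => cen z i + 48 / (100 * m) * (ε i * (u i - q i)) := fun z => by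
    by_cases hz : z ∈ B
    · obtain ⟨Φ, ε, q, m, k⟩ := hH z (c z) (y₀ z) (A z) (hc z hz).1 ((key z hz).1.trans o2)
      exact ⟨Φ, ε, q, m, fun _ => k⟩
    · exact ⟨.refl (IsOpen.conicalSet isOpen_univ), 0, 0, 0, fun h => (hz h).elim⟩
  choose Θ ε q m key2 using key2
  obtain ⟨Φ, g1, g2, g3, g4⟩ := glue hB Θ fun z hz => (key2 z hz).2.2.2.1
  have off : ∀ y, y ∉ interior (ubox 1 0 B) → Φ.toFun y = y := fun y hy =>
    g1 y fun z hz k => hy (int_sub hz k)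
  obtain ⟨h, hh⟩ := post g Φ hΛ fun y hy => off y fun k => hy (hsub (interior_subset k))
  have he : ∀ x, h.toFun x = Φ.toFun (g.toFun x) := fun x => congrFun hh x
  -- cells which miss the small balls
  have far : ∀ φ, φ ∉ hit S g.toFun (⋃ z ∈ B, ball (c z) (a / 2)) → ∀ x ∈ S.Q.cell φ,
      ∀ y ∈ S.Q.cell φ, dist (h.toFun x) (h.toFun y) ≤
        (2 * C + 1) * dist (g.toFun x) (g.toFun y) := fun φ hφ x hx y hy => by
    rw [he, he]
    exact g4 C (⋃ z ∈ B, ball (c z) (a / 2))ᶜ C.2 (fun z hz u hu u' hu' =>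
      (key2 z hz).2.2.2.2.1.dist_le_mul u (fun k => hu (mem_biUnion hz k)) u'
        fun k => hu' (mem_biUnion hz k)) _ (fun k => hφ (mem_hit.2 ⟨x, hx, k⟩)) _
      fun k => hφ (mem_hit.2 ⟨y, hy, k⟩)
  have farl : ∀ φ, φ ∉ hit S g.toFun (⋃ z ∈ B, ball (c z) (a / 2)) →
      lipc h.toFun (S.Q.cell φ) ≤ (2 * C + 1 : ℝ≥0) * lipc g.toFun (S.Q.cell φ) :=
    fun φ hφ => lipc_le fun x hx y hy => by
      rw [edist_dist, edist_dist, ← ENNReal.ofReal_coe_nnreal,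
        ← ENNReal.ofReal_mul (NNReal.coe_nonneg _)]
      exact ENNReal.ofReal_le_ofReal (far φ hφ x hx y hy)
  -- cells which meet a small ball
  have near : ∀ φ ∈ hit S g.toFun (⋃ z ∈ B, ball (c z) (a / 2)), ∃ z ∈ B,
      (∀ x ∈ S.Q.cell φ, g.toFun x ∈ ball (c z) a) ∧ ∀ x ∈ S.Q.cell φ, ∀ y ∈ S.Q.cell φ,
        dist (h.toFun x) (h.toFun y) ≤
          C * ‖(A z : E3 →L[ℝ] E3)‖ * dist (ξ z x) (ξ z y) := fun φ hφ => by
    obtain ⟨w, hw, hm⟩ := mem_hit.1 hφ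
    obtain ⟨z, hz, hm⟩ := mem_iUnion₂.1 hm
    have osc := hO φ ⟨_, mem_image_of_mem _ hw, us z hz (bs z hz (hb z hm))⟩
    have k : ∀ x ∈ S.Q.cell φ, g.toFun x ∈ ball (c z) a := fun x hx => by
      have := osc x hx w hw
      rw [mem_ball] at hm ⊢
      linarith [dist_triangle (g.toFun x) (g.toFun w) (c z)]
    refine ⟨z, hz, k, fun x hx y hy => ?_⟩
    rw [he, he, g3 z hz _ (bs z hz (k x hx)), g3 z hz _ (bs z hz (k y hy)),
      (key z hz).2.2 x (cell_sub φ hx) (k x hx), (key z hz).2.2 y (cell_sub φ hy) (k y hy)]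
    exact (key2 z hz).2.2.2.2.2.1 _ _
  have near3 : ∀ φ ∈ hit S g.toFun (⋃ z ∈ B, ball (c z) (a / 2)), S.Q.dim φ = 3 →
      lipc h.toFun (S.Q.cell φ) ≤
        (C * (54 * S.M φ ^ 2) + (2 * C + 1) : ℝ≥0) * S.A g.toFun φ ∧
      S.A h.toFun φ ≤ (C * (54 * S.M φ ^ 2) + (2 * C + 1) : ℝ≥0) * S.A g.toFun φ :=
    fun φ hφ h3 => by
    obtain ⟨z, hz, k1, k2⟩ := near φ hφ
    obtain ⟨l1, l2⟩ := cell_hole S (A := (A z : E3 →L[ℝ] E3)) (y₀ := y₀ z) h3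
      (fun e hs x hx => (key z hz).2.1 e x hx (k1 x (hs hx.1)))
      (fun x hx => (key z hz).2.2 x (cell_sub φ hx) (k1 x hx)) k2
    refine ⟨l1.trans ?_, l2.trans ?_⟩
    · gcongr
      refine le_trans ?_ le_self_add
      gcongr
      norm_num
    · gcongr
      exact le_self_add
  have hX : hit S g.toFun (⋃ z ∈ B, ball (c z) (a / 2)) ⊆
      hit S g.toFun (⋃ z ∈ B, ball (c z) a) := hit_mono (iUnion₂_mono fun z _ => hb z)
  have hole : ∀ z ∈ B, ∀ x, h.toFun x ∈ lbox 1 (1 / 400) z →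
      h.toFun x = (Θ z).toFun (g.toFun x) := fun z hz x hx => by
    rw [he] at hx ⊢
    exact g3 z hz _ ((g2 z _).1 (lbox_mono 1 (by norm_num) z hx))
  refine ⟨h, fun x _ hx => (he x).trans (off _ hx), fun x z => he x ▸ g2 z _,
    fun φ hφ x hx y hy => ?_, ⟨fun e _ hx => ?_, fun φ h3 => ?_, fun φ hφ => ?_,
      fun φ hH hφ => ?_⟩, fun z hz => ⟨m z, (key2 z hz).2.1, ?_⟩⟩
  · have c0 : (0 : ℝ) ≤ C := C.2
    push_cast
    by_cases hf : φ ∈ hit S g.toFun (⋃ z ∈ B, ball (c z) (a / 2))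
    · obtain ⟨z, hz, k1, k2⟩ := near φ hf
      obtain ⟨w, hw⟩ := S.Q.ocell_nonempty φ
      have e := (key z hz).2.1 φ w hw (k1 w hw.1)
      have d : dist (ξ z x) (ξ z y) ≤ 1 :=
        Ce.osc_hull (u := ξ z w) (by rwa [e] at hx) (by rwa [e] at hy)
      have n0 := norm_nonneg (A z : E3 →L[ℝ] E3)
      calc _ ≤ C * ‖(A z : E3 →L[ℝ] E3)‖ * dist (ξ z x) (ξ z y) := k2 x hx y hy
        _ ≤ C * o * 1 := by gcongr; exact (key z hz).1
        _ ≤ _ := by nlinarith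
    · exact (far φ hf x hx y hy).trans (mul_le_mul_of_nonneg_left (hφ x hx y hy) (by positivity))
  · exact (farl e fun k => hx (hX k)).trans le_self_add
  · rw [add_zero]
    by_cases hf : φ ∈ hit S g.toFun (⋃ z ∈ B, ball (c z) (a / 2))
    · exact (near3 φ hf h3).2
    · exact (Tl.A_le fun e _ hs => farl e fun k => hf (hit_face hs k)).trans
        (mul_le_mul_left (ENNReal.coe_le_coe.2 le_add_self) _)
  · rw [add_zero]
    by_cases hf : φ ∈ hit S g.toFun (⋃ z ∈ B, ball (c z) (a / 2))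
    · refine (near3 φ hf (hφ.resolve_right fun k => k.2 (hX hf))).1.trans ?_
      gcongr
      exact le_add_self
    · exact (farl φ hf).trans (mul_le_mul' (ENNReal.coe_le_coe.2 le_add_self) le_self_add)
  · obtain ⟨x, hx, hm⟩ := mem_hit.1 hH
    obtain ⟨z, hz, hm⟩ := mem_iUnion₂.1 hm
    have hf : φ ∈ hit S g.toFun (⋃ z ∈ B, ball (c z) (a / 2)) := mem_hit.2 ⟨x, hx,
      mem_biUnion hz ((key2 z hz).2.2.2.2.2.2 _ (hole z hz x hm ▸ hm)).1⟩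
    exact (near3 φ hf (hφ.resolve_right fun k => k.2 (hX hf))).1.trans le_self_add
  · refine lat_of_sgn (ξ z) (q := q z) (key2 z hz).1 (fun φ x hx hw => ?_) fun x hx hw => ?_
    · exact (key z hz).2.1 φ x hx
        (hb z ((key2 z hz).2.2.2.2.2.2 _ (hole z hz x hw ▸ hw)).1)
    · obtain ⟨k1, k2⟩ := (key2 z hz).2.2.2.2.2.2 _ (hole z hz x hw ▸ hw)
      rw [hole z hz x hw]
      exact k2 _ ((key z hz).2.2 x hx (hb z k1))

end P073.Mo.Ho
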