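import Vale.Agent.P073Y.B.Defs

/-!
# Neighbourhoods of families of parallel planes are thin
-/

set_option linter.all false

open Set Metric MeasureTheory
open scoped ENNReal

namespace P073.Mo

open P073.B (Thin)

/-- the points at distance at most `e ε` from the numbers `t₀ + e (m + 1 / 2)` -/
def Zb (t₀ e ε : ℝ) : Set ℝ := {t | ∃ m : ℤ, |t - (t₀ + e * (m + 1 / 2))| ≤ e * ε}

variable {t₀ e ε : ℝ}

theorem mem_Zb (he : 0 < e) {t : ℝ} :
    t ∈ Zb t₀ e ε ↔ ∃ m : ℤ, |(t - t₀) / e - 1 / 2 - m| ≤ ε := exists_congr fun m => by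
  rw [show t - (t₀ + e * (m + 1 / 2)) = e * ((t - t₀) / e - 1 / 2 - m) by field_simp; ring,
    abs_mul, abs_of_pos he, mul_le_mul_iff_right₀ he]

theorem isClosed_Zb (he : 0 < e) : IsClosed (Zb t₀ e ε) := by
  have h : LipschitzWith 1 fun u : ℝ => |u - round u| := LipschitzWith.of_le_add fun u v => by
    rw [Real.dist_eq]
    linarith [round_le u (round v), abs_sub_le u v (round v)]
  refine (congrArg IsClosed (Set.ext fun t => ?_)).mp (isClosed_le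
    (h.continuous.comp (f := fun t => (t - t₀) / e - 1 / 2) (by fun_prop)) continuous_const (g := fun _ => ε))
  rw [mem_Zb he]
  exact ⟨fun h => ⟨_, h⟩, fun ⟨m, h⟩ => (round_le _ m).trans h⟩

theorem volume_Zb (he : 0 < e) (h0 : 0 ≤ ε) (h1 : ε ≤ 1 / 2) (y : ℝ) {l : ℝ} (hl : 0 ≤ l) :
    volume (Zb t₀ e ε ∩ Icc y (y + l)) ≤ ENNReal.ofReal (2 * ε * l + 4 * e * ε) := by
  obtain ⟨a, ha⟩ : ∃ a, a = (y - t₀) / e - 1 / 2 - ε := ⟨_, rfl⟩
  have h2 : Zb t₀ e ε ∩ Icc y (y + l) ⊆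
      ⋃ m ∈ Finset.Icc ⌈a⌉ ⌊a + (l / e + 2 * ε)⌋, closedBall (t₀ + e * (m + 1 / 2)) (e * ε) := by
    rintro t ⟨⟨m, hm⟩, h3, h4⟩
    refine mem_iUnion₂.2 ⟨m, ?_, hm⟩
    rw [show t - (t₀ + e * (m + 1 / 2)) = e * ((t - t₀) / e - 1 / 2 - m) by field_simp; ring,
      abs_mul, abs_of_pos he, mul_le_mul_iff_right₀ he, abs_le] at hm
    have h5 := div_le_div_of_nonneg_right (sub_le_sub_right h3 t₀) he.le
    have h6 := div_le_div_of_nonneg_right (sub_le_sub_right h4 t₀) he.le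
    rw [add_sub_right_comm, add_div] at h6
    exact Finset.mem_Icc.2 ⟨Int.ceil_le.2 (by linarith [hm.2]), Int.le_floor.2 (by linarith [hm.1])⟩
  refine (measure_mono h2).trans ((measure_biUnion_finset_le _ _).trans ?_)
  simp only [Real.volume_closedBall, Finset.sum_const, Int.card_Icc, nsmul_eq_mul]
  rw [← ENNReal.ofReal_natCast, ← ENNReal.ofReal_mul (Nat.cast_nonneg _)]
  refine ENNReal.ofReal_le_ofReal ?_
  have h3 : 0 ≤ l / e := by positivity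
  have h4 : (((⌊a + (l / e + 2 * ε)⌋ + 1 - ⌈a⌉).toNat : ℤ) : ℝ) ≤ l / e + 2 := by
    rw [Int.toNat_eq_max]
    push_cast
    exact max_le (by linarith [Int.floor_le (a + (l / e + 2 * ε)), Int.le_ceil a]) (by linarith)
  calc _ ≤ (l / e + 2) * (2 * (e * ε)) := mul_le_mul_of_nonneg_right h4 (by positivity)
    _ = _ := by field_simp; ring

theorem thin_Zb (he : 0 < e) (h0 : 0 ≤ ε) (h1 : ε ≤ 1 / 2) {o ϑ : ℝ} (h2 : 32 * ε ≤ ϑ)
    (h3 : 4 * e * ε ≤ o) : Thin (Zb t₀ e ε) o ϑ :=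
  ⟨isClosed_Zb he, fun y l hl => (volume_Zb he h0 h1 y hl).trans
    (ENNReal.ofReal_le_ofReal (by nlinarith))⟩

/-- a slab over a set of numbers -/
theorem volume_slab {Z : Set ℝ} {lo hi : E3} (k : Fin 3) {v : ℝ} (hv : 0 ≤ v) (h : lo ≤ hi)
    (hZ : volume (Z ∩ Icc (lo k) (hi k)) ≤ ENNReal.ofReal v) :
    volume {y ∈ Icc lo hi | y k ∈ Z} ≤
      ENNReal.ofReal (v * ∏ j ∈ Finset.univ.erase k, (hi j - lo j)) := by
  have h1 : {y ∈ Icc lo hi | y k ∈ Z} ⊆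
      univ.pi (Function.update (fun j => Icc (lo j) (hi j)) k (Z ∩ Icc (lo k) (hi k))) :=
    fun y hy j _ => by
      rcases eq_or_ne j k with rfl | hj
      · rw [Function.update_self]
        exact ⟨hy.2, hy.1.1 j, hy.1.2 j⟩
      · rw [Function.update_of_ne hj]
        exact ⟨hy.1.1 j, hy.1.2 j⟩
  refine (measure_mono h1).trans ?_
  rw [volume_pi_pi, ← Finset.mul_prod_erase _ _ (Finset.mem_univ k), Function.update_self,
    ENNReal.ofReal_mul hv, ENNReal.ofReal_prod_of_nonneg fun j _ => sub_nonneg.2 (h j)]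
  refine mul_le_mul' hZ (Finset.prod_congr rfl fun j hj => ?_).le
  rw [Function.update_of_ne (Finset.ne_of_mem_erase hj), Real.volume_Icc]

theorem volume_box {t₀ lo hi : E3} (he : 0 < e) (h0 : 0 ≤ ε) (h1 : ε ≤ 1 / 2) (h : lo ≤ hi) :
    volume {y ∈ Icc lo hi | ∃ k, y k ∈ Zb (t₀ k) e ε} ≤ ENNReal.ofReal (∑ k,
      (2 * ε * (hi k - lo k) + 4 * e * ε) * ∏ j ∈ Finset.univ.erase k, (hi j - lo j)) := by
  have h2 : ∀ k, 0 ≤ 2 * ε * (hi k - lo k) + 4 * e * ε := fun k => by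
    have := sub_nonneg.2 (h k)
    positivity
  have h3 : {y ∈ Icc lo hi | ∃ k, y k ∈ Zb (t₀ k) e ε} ⊆
      ⋃ k, {y ∈ Icc lo hi | y k ∈ Zb (t₀ k) e ε} := fun y hy =>
    hy.2.elim fun k hk => mem_iUnion.2 ⟨k, hy.1, hk⟩
  rw [ENNReal.ofReal_sum_of_nonneg fun k _ => mul_nonneg (h2 k)
    (Finset.prod_nonneg fun j _ => sub_nonneg.2 (h j))]
  refine (measure_mono h3).trans ((measure_iUnion_fintype_le _ _).trans
    (Finset.sum_le_sum fun k _ => volume_slab k (h2 k) h ?_))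
  simpa only [add_sub_cancel] using volume_Zb (t₀ := t₀ k) he h0 h1 (lo k) (sub_nonneg.2 (h k))

/-- all sides are at most `l`, and `e ≤ l` -/
theorem volume_box' {t₀ lo hi : E3} {l : ℝ} (he : 0 < e) (h0 : 0 ≤ ε) (h1 : ε ≤ 1 / 2)
    (hl : ∀ k, hi k - lo k ≤ l) (hel : e ≤ l) :
    volume {y ∈ Icc lo hi | ∃ k, y k ∈ Zb (t₀ k) e ε} ≤ ENNReal.ofReal (18 * ε * l ^ 3) := by
  by_cases h : lo ≤ hi
  · refine (volume_box he h0 h1 h).trans (ENNReal.ofReal_le_ofReal ?_)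
    have h2 : ∀ k : Fin 3, (2 * ε * (hi k - lo k) + 4 * e * ε) *
        ∏ j ∈ Finset.univ.erase k, (hi j - lo j) ≤ 6 * ε * l * l ^ 2 := fun k => by
      refine mul_le_mul (by nlinarith [hl k]) ?_
        (Finset.prod_nonneg fun j _ => sub_nonneg.2 (h j)) (by nlinarith)
      refine (Finset.prod_le_prod (fun j _ => sub_nonneg.2 (h j)) fun j _ => hl j).trans_eq ?_
      simp
    rw [Fin.sum_univ_three]
    linarith [h2 0, h2 1, h2 2]
  · simp [Icc_eq_empty h]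

end P073.Mo
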