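import Vale.Agent.P073Y.Mo.Sk2
import Vale.Agent.P073Y.Mo.Thin

/-!
# The mosaic in one box
-/

open Set Metric Topology Filter MeasureTheory
open scoped NNReal ENNReal

namespace P073.Mo

open P073.Top P073.Zn P073.B

namespace On

theorem exists_hom (γ β : E3) {t : ℝ} (ht : t ≠ 0) :
    ∃ e : E3 ≃ᴬ[ℝ] E3, ∀ y, e y = γ + t • (y - β) := by
  let L : E3 ≃L[ℝ] E3 := (LinearEquiv.smulOfNeZero ℝ E3 t ht).toContinuousLinearEquiv
  refine ⟨L.toContinuousAffineEquiv.trans (ContinuousAffineEquiv.constVAdd ℝ E3 (γ - t • β)),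
    fun y => ?_⟩
  show (γ - t • β) + t • y = _
  module

theorem lipc_post {g h : E3 → E3} {X : Set E3} {L : ℝ≥0}
    (H : ∀ x ∈ X, ∀ y ∈ X, dist (h x) (h y) ≤ L * dist (g x) (g y)) :
    lipc h X ≤ L * lipc g X := by
  refine iSup₂_le fun x hx => iSup₂_le fun y hy => ?_
  have h1 : edist (h x) (h y) ≤ L * edist (g x) (g y) := by
    rw [edist_dist, edist_dist, ← ENNReal.ofReal_coe_nnreal, ← ENNReal.ofReal_mul L.coe_nonneg]
    exact ENNReal.ofReal_le_ofReal (H x hx y hy)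
  refine (ENNReal.div_le_div_right h1 _).trans ?_
  rw [mul_div_assoc]
  have h2 : edist (g x) (g y) / edist x y ≤ lipc g X :=
    le_iSup₂_of_le x hx (le_iSup₂_of_le y hy le_rfl)
  exact mul_le_mul_right h2 _

variable {Ω : Set E3} {S : Src Ω}

theorem A_le {g h : E3 → E3} {L : ℝ≥0∞}
    (H : ∀ e, lipc h (S.Q.cell e) ≤ L * lipc g (S.Q.cell e)) (c : S.Q.ι) :
    S.A h c ≤ L * S.A g c := by
  rw [Src.A, Src.A, ← ENNReal.tsum_mul_left]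
  refine ENNReal.tsum_le_tsum fun e => ?_
  split_ifs
  · exact H e
  · exact zero_le

theorem ct2_conj {g g₁ h₁ h : E3 → E3} {α β C D : ℝ≥0} {CM : ℝ≥0 → ℝ≥0}
    {X X' H H' : Set S.Q.ι} {η : ℝ≥0∞} (h0 : Ct2 C CM S g₁ h₁ X' H' η)
    (h1 : ∀ c, lipc g₁ (S.Q.cell c) ≤ α * lipc g (S.Q.cell c))
    (h2 : ∀ c, lipc h (S.Q.cell c) ≤ β * lipc h₁ (S.Q.cell c)) (hβ : β ≤ 1) (hD : β * α ≤ D)
    (hX : X' ⊆ X) (hH : H ⊆ H') : Ct2 (C * D) (fun M => CM M * D) S g h X H η := by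
  have hβ' : (β : ℝ≥0∞) ≤ 1 := by exact_mod_cast hβ
  have hD' : (β : ℝ≥0∞) * α ≤ D := by exact_mod_cast hD
  have key : ∀ {u u' w w' : ℝ≥0∞} {k : ℝ≥0}, u ≤ β * u' → u' ≤ k * w' + η → w' ≤ α * w →
      u ≤ ((k * D : ℝ≥0) : ℝ≥0∞) * w + η := fun {u u' w w' k} a1 a2 a3 =>
    calc u ≤ β * (k * (α * w) + η) := a1.trans (by gcongr; exact a2.trans (by gcongr))
      _ = k * (β * α) * w + β * η := by ring
      _ ≤ k * D * w + 1 * η := by gcongr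
      _ = _ := by push_cast; ring
  have hc : ∀ {c}, (S.Q.dim c = 3 ∨ (S.Q.dim c = 2 ∧ c ∉ X)) →
      (S.Q.dim c = 3 ∨ (S.Q.dim c = 2 ∧ c ∉ X')) := fun h =>
    h.imp_right fun h => ⟨h.1, fun h' => h.2 (hX h')⟩
  refine ⟨fun e he hx => key (h2 e) (h0.wire e he fun h' => hx (hX h')) (h1 e),
    fun c hc' => key (A_le h2 c) (h0.sum c hc') (A_le h1 c),
    fun c hc' => key (h2 c) (h0.keep c (hc hc')) ?_,
    fun c hH' hc' => key (h2 c) (h0.gain c (hH hH') (hc hc')) (A_le h1 c)⟩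
  rw [mul_add]
  exact add_le_add (h1 c) (A_le h1 c)

theorem mem_unit {κ : ℝ} {ζ : Z3} {w : E3} :
    w ∈ lbox 1 κ ζ ↔ ∀ i, ζ i + κ ≤ w i ∧ w i ≤ ζ i + 1 - κ := by
  have : ∀ i, wd 1 i = 1 := fun i => by fin_cases i <;> simp [wd]
  simp only [mem_lbox, this, mul_one]

theorem wd_nat (N : ℕ) (i : Fin 3) : ∃ n : ℕ, wd N i = n := by
  fin_cases i
  exacts [⟨N, by simp [wd]⟩, ⟨N, by simp [wd]⟩, ⟨1, by simp [wd]⟩]

theorem wd_le {N : ℕ} (hN : 1 ≤ N) (i : Fin 3) : wd N i ≤ N := by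
  have : (1 : ℝ) ≤ N := by exact_mod_cast hN
  fin_cases i <;> simp [wd, this]

theorem image_eq (Φ : Hom) {W Λ : Set E3} (hW : W ⊆ Λ) (h : ∀ y, y ∉ W → Φ.toFun y = y) :
    Φ.toFun '' Λ = Λ := by
  have key : ∀ y, Φ.toFun y ∈ W ↔ y ∈ W := fun y =>
    Rd.mem_iff (ConHomeo.refl (IsOpen.conicalSet isOpen_univ)) Φ (fun y _ hy => h y hy)
      (mem_univ y)
  refine Subset.antisymm ?_ fun y hy => ?_
  · rintro _ ⟨y, hy, rfl⟩
    by_cases hw : y ∈ W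
    · exact hW ((key y).2 hw)
    · rwa [h y hw]
  · by_cases hw : y ∈ W
    · have e : Φ.toFun (Φ.invFun y) = y := Φ.right_inv (mem_univ y)
      exact ⟨_, hW ((key _).1 (by rwa [e])), e⟩
    · exact ⟨y, hy, h y hw⟩

theorem cer_of_lat {g : E3 → E3} {y y₀ : E3} {μ l : ℝ} (H : Lat S g (ball y μ) y₀ l)
    (hl : l ≠ 0) : ∃ ξ a : E3 ≃ᵃ[ℝ] E3,
    (∀ c, ∀ x ∈ S.Q.ocell c, g x ∈ ball y μ → S.Q.cell c = ξ ⁻¹' M2.hull (ξ x)) ∧
    ∀ x ∈ Ω, g x ∈ ball y μ → g x = a x := by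
  obtain ⟨ξ, h1, h2⟩ := H
  obtain ⟨e, he⟩ := exists_hom y₀ 0 hl
  refine ⟨ξ, ξ.trans e.toAffineEquiv, h1, fun x hx hy => ?_⟩
  rw [h2 x hx hy]
  exact ((he (ξ x)).trans (by rw [sub_zero])).symm

theorem exists_scale {μ : ℝ} (h0 : 0 < μ) (h1 : μ ≤ 1) : ∃ (m : ℕ) (l : ℝ), 0 < l ∧
    l * (100 * m) = 1 ∧ 10000 * l ≤ μ ∧ μ ≤ 10100 * l := by
  have a1 := Nat.le_ceil (100 / μ)
  have a2 := (Nat.ceil_lt_add_one (show 0 ≤ 100 / μ by positivity)).le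
  generalize ⌈100 / μ⌉₊ = m at a1 a2
  rw [div_le_iff₀ h0] at a1
  have a3 : m * μ ≤ 101 := by
    have : (m : ℝ) * μ ≤ (100 / μ + 1) * μ := mul_le_mul_of_nonneg_right a2 h0.le
    rw [add_mul, div_mul_cancel₀ _ h0.ne'] at this
    linarith
  have hm : (0 : ℝ) < m := by nlinarith
  refine ⟨m, 1 / (100 * m), by positivity, by field_simp, ?_, ?_⟩
  · rw [mul_one_div, div_le_iff₀ (by positivity)]
    linarith
  · rw [mul_one_div, le_div_iff₀ (by positivity)]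
    linarith

theorem fl (w : E3) : w ∈ lbox 1 0 fun i => ⌊w i⌋ := mem_unit.2 fun i =>
  ⟨by simpa using Int.floor_le (w i), by simpa using (Int.lt_floor_add_one (w i)).le⟩

/-- the small lattice -/
structure Sc (N : ℕ) (z : Z3) (l : ℝ) (T : E3 ≃ᴬ[ℝ] E3) (p : Z3 → E3) (B : Set Z3) : Prop where
  T1 : ∀ y i, y i = l * (T y i - 1 / 2)
  T2 : ∀ y y', dist y y' = l * dist (T y) (T y')
  hp : ∀ ζ i, p ζ i = l * ζ i
  Tp : ∀ ζ, T (p ζ) = cen ζ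
  fin : B.Finite
  F1 : ∀ ζ ∈ nbr 1 B, ∀ y, T y ∈ lbox 1 0 ζ → y ∈ lbox N (1 / 400) z
  F2 : ∀ y ∈ lbox N (1 / 250) z, (fun i => ⌊T y i⌋) ∈ B
  F3 : ∀ (y : E3) (k : Fin 3) (κ : ℝ), y k ∉ Zb 0 l κ →
    ⌊T y k⌋ + κ ≤ T y k ∧ T y k ≤ ⌊T y k⌋ + 1 - κ

theorem exists_sc (N : ℕ) (z : Z3) {l : ℝ} (hl : 0 < l) (l1 : 10000 * l ≤ 1) :
    ∃ T p B, Sc N z l T p B := by
  obtain ⟨T, hT⟩ := exists_hom (fun _ => 1 / 2) 0 (inv_ne_zero hl.ne')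
  have T1 : ∀ y i, y i = l * (T y i - 1 / 2) := fun y i => by
    rw [hT]
    simp only [Pi.add_apply, Pi.smul_apply, smul_eq_mul, sub_zero]
    field_simp
    ring
  have T2 : ∀ y y', dist y y' = l * dist (T y) (T y') := fun y y' => by
    rw [hT, hT, dist_add_left, dist_smul₀, dist_sub_right, Real.norm_eq_abs,
      abs_of_pos (inv_pos.2 hl), ← mul_assoc, mul_inv_cancel₀ hl.ne', one_mul]
  obtain ⟨p, hp⟩ : ∃ p : Z3 → E3, ∀ ζ i, p ζ i = l * ζ i := ⟨fun ζ i => l * ζ i, fun _ _ => rfl⟩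
  have Tp : ∀ ζ, T (p ζ) = cen ζ := fun ζ => by
    funext i
    have := T1 (p ζ) i
    rw [hp] at this
    simp only [cen]
    linarith [mul_left_cancel₀ hl.ne' this]
  obtain ⟨B, hB⟩ : ∃ B : Set Z3, ∀ ζ, ζ ∈ B ↔ p ζ ∈ lbox N (1 / 300) z := ⟨_, fun _ => Iff.rfl⟩
  have hBf : B.Finite := by
    refine (finite_Icc (fun i => ⌊z i * wd N i / l⌋) fun i => ⌈(z i + 1) * wd N i / l⌉).subset
      fun ζ hζ => ⟨fun i => ?_, fun i => ?_⟩
    · have := (mem_lbox.1 ((hB ζ).1 hζ) i).1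
      rw [hp] at this
      exact Int.floor_le_iff.2 (by rw [div_lt_iff₀ hl]; linarith)
    · have := (mem_lbox.1 ((hB ζ).1 hζ) i).2
      rw [hp] at this
      exact Int.le_ceil_iff.2 (by rw [lt_div_iff₀ hl]; linarith)
  have near : ∀ {ζ y}, T y ∈ lbox 1 0 ζ → dist y (p ζ) ≤ l / 2 := fun {ζ y} hy => by
    refine (dist_pi_le_iff (by positivity)).2 fun i => ?_
    have := mem_unit.1 hy i
    rw [Real.dist_eq, T1 y i, hp, abs_le]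
    constructor <;> nlinarith [this.1, this.2]
  have F1 : ∀ ζ ∈ nbr 1 B, ∀ y, T y ∈ lbox 1 0 ζ → y ∈ lbox N (1 / 400) z := by
    rintro ζ ⟨ζ', h1, h2⟩ y hy
    have h3 : dist (p ζ) (p ζ') ≤ l := (dist_pi_le_iff hl.le).2 fun i => by
      have : |(ζ i : ℝ) - ζ' i| ≤ 1 := by exact_mod_cast h2 i
      rw [Real.dist_eq, hp, hp, ← mul_sub, abs_mul, abs_of_pos hl]
      nlinarith
    exact lbox_mono N (by linarith) z (lbox_dist ((hB ζ').1 h1)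
      ((dist_triangle y (p ζ) (p ζ')).trans (add_le_add (near hy) h3)))
  have F2 : ∀ y ∈ lbox N (1 / 250) z, (fun i => ⌊T y i⌋) ∈ B := fun y hy =>
    (hB _).2 (lbox_mono N (by linarith) z (lbox_dist hy ((dist_comm _ _).le.trans (near (fl _)))))
  have F3 : ∀ (y : E3) (k : Fin 3) (κ : ℝ), y k ∉ Zb 0 l κ →
      ⌊T y k⌋ + κ ≤ T y k ∧ T y k ≤ ⌊T y k⌋ + 1 - κ := fun y k κ hy => by
    have b1 := Int.floor_le (T y k)
    have b2 := Int.lt_floor_add_one (T y k)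
    have b3 : (y k - 0) / l = T y k - 1 / 2 := by
      rw [sub_zero, div_eq_iff hl.ne', mul_comm]; exact T1 y k
    rw [mem_Zb hl, b3] at hy
    push Not at hy
    have c1 := hy (⌊T y k⌋ - 1)
    have c2 := hy ⌊T y k⌋
    push_cast at c1
    rw [abs_of_nonneg (by linarith)] at c1
    rw [abs_of_nonpos (by linarith)] at c2
    constructor <;> linarith
  exact ⟨T, p, B, T1, T2, hp, Tp, hBf, F1, F2, F3⟩

variable {N : ℕ} {z : Z3} {l : ℝ} {T : E3 ≃ᴬ[ℝ] E3} {p : Z3 → E3} {B : Set Z3}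

theorem Sc.pack (s : Sc N z l T p B) (hl : 0 < l) {Q : E3 → E3 → E3 → ℝ → Prop} {R : Hom → Prop}
    {Q' : Hom → E3 → E3 → ℝ → Prop}
    (hP : ∀ U : Finset E3, (∀ c ∈ U, c ∈ lbox N (1 / 400) z) →
      (∀ c ∈ U, ∀ c' ∈ U, c ≠ c' → l ≤ dist c c') →
      ∃ Φ, R Φ ∧ ∀ c ∈ U, ∃ y₀ c' M, Q c y₀ c' M ∧ Q' Φ y₀ c' M) :
    ∃ (Φ : Hom) (y₀ c' : Z3 → E3) (M : Z3 → ℝ), R Φ ∧ ∀ ζ ∈ nbr 1 B,
      Q (p ζ) (y₀ ζ) (c' ζ) (M ζ) ∧ Q' Φ (y₀ ζ) (c' ζ) (M ζ) := by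
  classical
  have hcen : ∀ ζ, cen ζ ∈ lbox 1 0 ζ := fun ζ => mem_unit.2 fun i => by
    simp only [cen]; constructor <;> linarith
  have hnf := nbr_finite s.fin 1
  obtain ⟨Φ, p1, p4⟩ := hP (hnf.toFinset.image p)
    (fun c hc => by
      obtain ⟨ζ, h1, rfl⟩ := Finset.mem_image.1 hc
      exact s.F1 ζ (hnf.mem_toFinset.1 h1) _ (by rw [s.Tp]; exact hcen ζ))
    fun c hc c' hc' hne => by
      obtain ⟨ζ, -, rfl⟩ := Finset.mem_image.1 hc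
      obtain ⟨ζ', -, rfl⟩ := Finset.mem_image.1 hc'
      obtain ⟨i, hi⟩ := Function.ne_iff.1 (fun e => hne (congrArg p e) : ζ ≠ ζ')
      have : (1 : ℝ) ≤ |(ζ i : ℝ) - ζ' i| := by
        exact_mod_cast Int.one_le_abs (sub_ne_zero.2 hi)
      refine le_trans ?_ (dist_le_pi_dist _ _ i)
      rw [Real.dist_eq, s.hp, s.hp, ← mul_sub, abs_mul, abs_of_pos hl]
      exact le_mul_of_one_le_right hl.le this
  have p5 : ∀ ζ, ∃ y₀ c' : E3, ∃ M : ℝ, ζ ∈ nbr 1 B → Q (p ζ) y₀ c' M ∧ Q' Φ y₀ c' M := fun ζ => by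
    by_cases hζ : ζ ∈ nbr 1 B
    · obtain ⟨y₀, c', M, h2⟩ := p4 _ (Finset.mem_image_of_mem p (hnf.mem_toFinset.2 hζ))
      exact ⟨y₀, c', M, fun _ => h2⟩
    · exact ⟨0, 0, 0, fun h => absurd h hζ⟩
  choose y₀ c' M p5 using p5
  exact ⟨Φ, y₀, c', M, p1, p5⟩

theorem Sc.rims (s : Sc N z l T p B) (hl : 0 < l) {m : ℕ} (hlm : l * (100 * m) = 1) {ε : ℝ}
    (f1 : 4 * ε ≤ 1) {h : E3 → E3}
    (H2 : ∀ c ∈ hit S h (lbox N (1 / 100) z), OscC S h c (l * ε))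
    (H3 : ∀ ζ ∈ B, ∃ l', 0 < l' ∧ Lat S h (T ⁻¹' lbox 1 ε ζ) (p ζ) l') :
    Rims S h N {z} fun _ => Zb 0 l (3 * ε) := by
  intro z' hz c _ x hx hy i hi
  rw [mem_singleton_iff.1 hz] at hy hi
  have hc := H2 c (mem_hit.2 ⟨x, hx, hy⟩)
  by_cases hk : ∃ k, k ≠ i ∧ h x k ∈ Zb 0 l (2 * ε)
  · obtain ⟨k, hk, n, hn⟩ := hk
    refine Or.inr ⟨k, hk, fun x' hx' => ⟨n, ?_⟩⟩
    have b1 := (dist_le_pi_dist _ _ k).trans (hc x' hx' x hx)
    rw [Real.dist_eq] at b1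
    linarith [abs_sub_le (h x' k) (h x k) (0 + l * (n + 1 / 2))]
  push Not at hk
  obtain ⟨n, hn⟩ : ∃ n : ℤ, h x i = l * n := by
    obtain ⟨w, hw⟩ := wd_nat N i
    rcases hi with hi | hi
    · refine ⟨z i * w * (100 * m) + 2 * m, ?_⟩
      rw [hi, hw]
      push_cast
      linear_combination (-(z i * w) - 2 / 100) * hlm
    · refine ⟨(z i + 1) * w * (100 * m) - 2 * m, ?_⟩
      rw [hi, hw]
      push_cast
      linear_combination (-((z i + 1) * w) + 2 / 100) * hlm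
  have b1 : T (h x) i = n + 1 / 2 := by
    have := s.T1 (h x) i
    rw [hn] at this
    linarith [mul_left_cancel₀ hl.ne' this]
  have b2 : ⌊T (h x) i⌋ = n := Int.floor_eq_iff.2 ⟨by linarith, by linarith⟩
  have b3 : T (h x) ∈ lbox 1 (2 * ε) fun k => ⌊T (h x) k⌋ := mem_unit.2 fun k => by
    by_cases e : k = i
    · rw [e, b2, b1]
      constructor <;> linarith
    · exact s.F3 _ k _ (hk k e)
  obtain ⟨l', b4, b5⟩ := H3 _ (s.F2 _ (lbox_mono N (by norm_num) z hy))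
  refine b5.ok b4 ?_ _ i 0 (by rw [s.hp, b2, hn]; simp)
  rintro _ ⟨x', hx', rfl⟩
  refine lbox_mono 1 (by linarith) _ (lbox_dist b3 (d := ε) (le_of_mul_le_mul_left ?_ hl))
  rw [← s.T2]
  exact hc x' hx' x hx

theorem vol (hN : 1 ≤ N) (z : Z3) (hl : 0 < l) (l1 : l ≤ 1) {ε₀ : ℝ} (e0 : 0 ≤ ε₀)
    (e1 : ε₀ ≤ 1 / 2) :
    volume (lbox N (1 / 100) z \ (interior (lbox N (1 / 200) z) ∩ {y | ∀ k, y k ∉ Zb 0 l ε₀})) ≤
      ENNReal.ofReal (18 * ε₀ * N ^ 3) := by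
  have hN' : (1 : ℝ) ≤ N := by exact_mod_cast hN
  refine le_trans (measure_mono fun y hy => ?_) (volume_box' (t₀ := 0) (l := N)
    (lo := fun i => z i * wd N i + 1 / 100) (hi := fun i => (z i + 1) * wd N i - 1 / 100)
    hl e0 e1 (fun k => by linarith [wd_le hN k]) (by linarith))
  refine ⟨hy.1, ?_⟩
  by_contra hn
  push Not at hn
  refine hy.2 ⟨mem_interior_iff_mem_nhds.2 ?_, hn⟩
  filter_upwards [closedBall_mem_nhds y (show (0 : ℝ) < 1 / 200 by norm_num)] with u hu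
  exact lbox_mono N (by norm_num) z (lbox_dist hy.1 hu)

theorem Sc.cer (s : Sc N z l T p B) (hl : 0 < l) {ε ε₀ d : ℝ} (f1 : 2 * ε ≤ ε₀)
    (hd : 2 * d ≤ l * ε₀) {h : E3 → E3}
    (H3 : ∀ ζ ∈ B, ∃ l', 0 < l' ∧ Lat S h (T ⁻¹' lbox 1 ε ζ) (p ζ) l') (W : Set E3) :
    Cer S h (W ∩ {y | ∀ k, y k ∉ Zb 0 l ε₀} ∩ lbox N (1 / 100) z) d := by
  rintro y ⟨⟨-, hy⟩, hy'⟩
  obtain ⟨l', b4, b5⟩ := H3 _ (s.F2 _ (lbox_mono N (by norm_num) z hy'))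
  refine cer_of_lat (b5.mono fun u hu => ?_) b4.ne'
  have b1 := mem_ball.1 hu
  rw [s.T2] at b1
  exact lbox_mono 1 (by linarith) _ (lbox_dist (mem_unit.2 fun k => s.F3 y k _ (hy k))
    (d := ε₀ / 2) (le_of_mul_le_mul_left (by linarith) hl))

end On

open On

theorem mos1_of (hP : PACK) (hS : SML) : MOS1 := by
  classical
  obtain ⟨v₀, a, C₀, hv₀, ha, ha', hC₀, hP⟩ := hP
  obtain ⟨C₁, K, CM, hC₁, hK, hS⟩ := hS a ha ha'
  have hK' : (1 : ℝ) ≤ K := hK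
  have hC₀' : (1 : ℝ) ≤ C₀ := hC₀
  refine ⟨v₀, C₁ * C₀, fun M => CM M * C₀, hv₀, one_le_mul hC₁ hC₀, fun N v hN hv => ?_⟩
  have hN' : (1 : ℝ) ≤ N := by exact_mod_cast hN
  obtain ⟨ε₀, e0, e1, e2⟩ : ∃ ε₀ : ℝ, 0 < ε₀ ∧ ε₀ ≤ 1 / 10 ∧ 18 * ε₀ * N ^ 3 ≤ v := by
    refine ⟨min (1 / 10) (v / (18 * N ^ 3)), by positivity, min_le_left _ _, ?_⟩
    have := min_le_right (1 / 10 : ℝ) (v / (18 * N ^ 3))
    rw [le_div_iff₀ (by positivity)] at this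
    linarith
  refine ⟨ε₀ / 20200, by positivity, fun r' ϑ hr' hϑ => ?_⟩
  obtain ⟨ε, f0, f1, f2, f3⟩ : ∃ ε : ℝ, 0 < ε ∧ 2 * ε ≤ ε₀ ∧ 96 * ε ≤ ϑ ∧ 12 * ε ≤ r' := by
    refine ⟨min (ε₀ / 2) (min (ϑ / 96) (r' / 12)), by positivity, ?_, ?_, ?_⟩
    · linarith [min_le_left (ε₀ / 2) (min (ϑ / 96) (r' / 12))]
    · linarith [min_le_right (ε₀ / 2) (min (ϑ / 96) (r' / 12)), min_le_left (ϑ / 96) (r' / 12)]
    · linarith [min_le_right (ε₀ / 2) (min (ϑ / 96) (r' / 12)), min_le_right (ϑ / 96) (r' / 12)]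
  refine ⟨ε / (K * C₀ * 10100), by positivity, ?_⟩
  intro Ω Λ S g z G μ η hF hΩ hΛ hG hη hsub hμ hμ1 hvol hcer hosc
  obtain ⟨m, l, hl, hlm, l1, l2⟩ := exists_scale hμ hμ1
  obtain ⟨T, p, B, s⟩ := exists_sc N z hl (by linarith)
  have T2 := s.T2
  have Tp := s.Tp
  have F1 := s.F1
  have T3 : ∀ y, y = 0 + l • (T y - fun _ => 1 / 2) := fun y => by
    funext i
    simpa using s.T1 y i
  obtain ⟨Φ, y₀, c', M, ⟨p1, p2⟩, p5⟩ := s.pack hl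
    (Q := fun c y₀ c' M => y₀ ∈ G ∩ lbox N (1 / 800) z ∧ 1 ≤ M ∧ dist c' c ≤ l / 100)
    (R := fun Φ => LipschitzWith C₀ Φ.toFun ∧
      ∀ y, y ∉ interior (lbox N (1 / 800) z) → Φ.toFun y = y)
    (Q' := fun Φ y₀ c' M => ∀ y, Φ.toFun y ∈ closedBall c' (a * l) →
      Φ.toFun y = c' + M • (y - y₀)) fun U h1 h2 => by
      obtain ⟨Φ, b1, b2, -, b3⟩ := hP N z G l U hN hG hvol hl (by linarith) h1 h2
      refine ⟨Φ, ⟨b1, b2⟩, fun c hc => ?_⟩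
      obtain ⟨y₀, b4, c', M, b5, b6, b7⟩ := b3 c hc
      exact ⟨y₀, c', M, ⟨b4, b5, b6⟩, b7⟩
  clear hP
  have p2' : ∀ y, y ∉ lbox N (1 / 800) z → Φ.toFun y = y := fun y hy =>
    p2 y fun h => hy (interior_subset h)
  have hW : lbox N (1 / 800) z ⊆ Λ := (lbox_mono N (by norm_num) z).trans hsub
  let τ := ConHomeo.ofAffine T (IsOpen.conicalSet hΛ)
  let g₁ : ConHomeo Ω (T '' Λ) := (g.trans
    ((Φ.restr (IsOpen.conicalSet hΛ) (subset_univ _)).cast rfl (image_eq Φ hW p2'))).trans τ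
  have G1 : ∀ x, g₁.toFun x = T (Φ.toFun (g.toFun x)) := fun _ => rfl
  have G2 : ∀ x x', l * dist (g₁.toFun x) (g₁.toFun x') ≤ C₀ * dist (g.toFun x) (g.toFun x') :=
    fun x x' => by rw [G1, G1, ← T2]; exact p1.dist_le_mul _ _
  have G3 : ∀ c ∈ hit S g.toFun (lbox N (1 / 1000) z), OscC S g₁.toFun c (ε / K) := by
    intro c hc x hx x' hx'
    have b1 := (G2 x x').trans (mul_le_mul_of_nonneg_left (hosc c hc x hx x' hx') C₀.2)
    have b2 : (C₀ : ℝ) * (ε / (K * C₀ * 10100) * μ) = ε / K * (μ / 10100) := by field_simp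
    have b3 : ε / K * (μ / 10100) ≤ ε / K * l :=
      mul_le_mul_of_nonneg_left (by linarith) (by positivity)
    exact le_of_mul_le_mul_left (by linarith) hl
  have G4 : ∀ ζ ∈ nbr 1 B, ∀ x, g₁.toFun x ∈ ball (T (c' ζ)) a →
      Φ.toFun (g.toFun x) = c' ζ + M ζ • (g.toFun x - y₀ ζ) ∧ g.toFun x ∈ ball (y₀ ζ) μ := by
    intro ζ hζ x hx
    obtain ⟨⟨-, b1, -⟩, b2⟩ := p5 ζ hζ
    have b3 : dist (Φ.toFun (g.toFun x)) (c' ζ) ≤ a * l := by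
      rw [T2, ← G1, mul_comm]
      exact mul_le_mul_of_nonneg_right (mem_ball.1 hx).le hl.le
    refine ⟨b2 _ b3, ?_⟩
    rw [b2 _ b3, dist_self_add_left, norm_smul, Real.norm_eq_abs, abs_of_pos (by linarith)] at b3
    rw [mem_ball, dist_eq_norm]
    nlinarith [norm_nonneg (g.toFun x - y₀ ζ)]
  have G5 : ∀ x, g₁.toFun x ∈ ubox 1 0 (nbr 1 B) → g.toFun x ∈ lbox N (1 / 800) z := by
    intro x hx
    obtain ⟨ζ, hζ, hx⟩ := mem_iUnion₂.1 hx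
    by_contra hn
    rw [G1, p2' _ hn] at hx
    exact hn (lbox_mono N (by norm_num) z (F1 ζ hζ _ hx))
  have hKo : K * (ε / K) = ε := by field_simp
  obtain ⟨h₁, q1, q2, q3, q4, q5⟩ := hS S g₁ B (fun ζ => T (c' ζ)) ε (ε / K) η hF hΩ
    (T.toHomeomorph.isOpenMap _ hΛ) s.fin f0 (by linarith) (by positivity) (by linarith) hη
    (fun w hw => by
      obtain ⟨ζ, hζ, hw⟩ := mem_iUnion₂.1 hw
      exact ⟨T.symm w, hW (lbox_mono N (by norm_num) z (F1 ζ hζ _ (by simpa using hw))), by simp⟩)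
    (fun c hc => by
      obtain ⟨x, hx, hy⟩ := mem_hit.1 hc
      exact G3 c (mem_hit.2 ⟨x, hx, lbox_mono N (by norm_num) z (G5 x hy)⟩))
    fun ζ hζ => by
      obtain ⟨⟨b0, b1, b2⟩, -⟩ := p5 ζ hζ
      refine ⟨?_, ?_⟩
      · rw [T2, Tp] at b2
        nlinarith
      · rintro _ rfl
        obtain ⟨ξ, A, b3, b4⟩ := hcer _ b0
        obtain ⟨e, he⟩ := exists_hom (c' ζ) (y₀ ζ) (show M ζ ≠ 0 by linarith)
        refine ⟨ξ, A.trans (e.trans T).toAffineEquiv, fun c x hx hy => b3 c x hx (G4 ζ hζ x hy).2,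
          fun x hx hy => ?_⟩
        rw [G1, (G4 ζ hζ x hy).1, b4 x hx (G4 ζ hζ x hy).2, ← he]
        rfl
  rw [hKo] at q3
  let h : ConHomeo Ω Λ := h₁.trans τ.symm
  have H1 : ∀ x, T (h.toFun x) = h₁.toFun x := fun x => T.apply_symm_apply _
  have off : ∀ x ∈ Ω, g.toFun x ∉ lbox N (1 / 800) z → h.toFun x = g.toFun x := fun x hx hn =>
    T.injective (by rw [H1, q1 x hx fun hi => hn (G5 x (interior_subset hi)), G1, p2' _ hn])
  have H2 : ∀ c ∈ hit S g.toFun (lbox N (1 / 1000) z), OscC S h.toFun c (l * ε) :=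
    fun c hc x hx x' hx' => by
      rw [T2, H1, H1]
      exact mul_le_mul_of_nonneg_left (q3 c (G3 c hc) x hx x' hx') hl.le
  have H3 : ∀ ζ ∈ B, ∃ l', 0 < l' ∧ Lat S h.toFun (T ⁻¹' lbox 1 ε ζ) (p ζ) l' := fun ζ hζ => by
    obtain ⟨l', b1, b2⟩ := q5 ζ (sub_nbr 1 B hζ)
    have := b2.map (h := h.toFun) (W' := T ⁻¹' lbox 1 ε ζ) (β := fun _ => 1 / 2) (γ := 0) (t := l)
      fun x _ hw => ⟨by rw [← H1]; exact hw, by rw [← H1]; exact T3 _⟩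
    rw [← Tp, ← T3] at this
    exact ⟨_, mul_pos hl b1, this⟩
  refine ⟨h, fun _ => Zb 0 l (3 * ε), interior (lbox N (1 / 200) z) ∩ {y | ∀ k, y k ∉ Zb 0 l ε₀},
    off, ?_, ?_, ?_, fun y hy => interior_subset hy.1,
    fun _ => thin_Zb hl (by linarith) (by linarith) (by linarith) (by nlinarith),
    fun c hc x hx x' hx' => (H2 c hc x hx x' hx').trans (by nlinarith),
    (vol hN z hl (by linarith) e0.le (by linarith)).trans (ENNReal.ofReal_le_ofReal e2),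
    s.cer hl f1 (by nlinarith) H3 _⟩
  · refine ct2_conj (α := ⟨C₀ / l, by positivity⟩) (β := ⟨l, hl.le⟩) q4
      (fun c => lipc_post fun x _ x' _ => ?_) (fun c => lipc_post fun x _ x' _ => ?_)
      (show l ≤ 1 by linarith) (show l * (C₀ / l) ≤ C₀ by rw [mul_div_cancel₀ _ hl.ne'])
      (fun c hc => ?_) fun c hc => ?_
    · show _ ≤ C₀ / l * _
      rw [div_mul_eq_mul_div, le_div_iff₀ hl, mul_comm]
      exact G2 x x'
    · rw [← H1, ← H1]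
      exact (T2 _ _).le
    · obtain ⟨x, hx, hy⟩ := mem_hit.1 hc
      obtain ⟨ζ, hζ, hy⟩ := mem_iUnion₂.1 hy
      exact mem_hit.2 ⟨x, hx, mem_thickening_iff.2 ⟨_, (p5 ζ hζ).1.1, (G4 ζ hζ x hy).2⟩⟩
    · obtain ⟨x, hx, hy⟩ := mem_hit.1 hc
      have b1 : dist (Φ.toFun (g.toFun x)) (h.toFun x) ≤ l * 4 := by
        rw [T2, H1, ← G1, dist_comm]
        exact mul_le_mul_of_nonneg_left (q2 x (cell_sub c hx)) hl.le
      exact mem_hit.2 ⟨x, hx, mem_biUnion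
        (s.F2 _ (lbox_mono N (by linarith) z (lbox_dist hy b1))) (fl _)⟩
  · refine s.rims hl hlm (by linarith) (fun c hc => H2 c ?_) H3
    obtain ⟨x, hx, hy⟩ := mem_hit.1 hc
    refine mem_hit.2 ⟨x, hx, ?_⟩
    by_contra hn
    rw [off x (cell_sub c hx) fun h => hn (lbox_mono N (by norm_num) z h)] at hy
    exact hn (lbox_mono N (by norm_num) z hy)
  · refine isOpen_interior.inter ?_
    rw [ofPred_forall]
    exact isOpen_iInter_of_finite fun k =>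
      ((isClosed_Zb (t₀ := 0) (ε := ε₀) hl).preimage
        (continuous_apply k : Continuous fun y : E3 => y k)).isOpen_compl

end P073.Mo
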